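import Vale.Agent.P078.AllMasa.Family.Symm

/-! The adjoint of a maximal family is maximal. -/

namespace Vale.Agent.P078.AllMasa.Family

open TopologicalSpace Filter Topology ComplexOrder

set_option linter.unusedSectionVars false

variable {M X : Type*} [CStarAlgebra M] [PartialOrder M] [StarOrderedRing M]
variable [TopologicalSpace X] [CompactSpace X] [T2Space X] [TotallyDisconnectedSpace X]

namespace Data

variable {D : Data M X}

theorem IsPN.coeff_star_ne {u z : M} (h : D.IsPN u) (hz : IsSelfAdjoint z)
    (hne : D.coeff z u ≠ 0) : D.coeff z (star u) ≠ 0 := by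
  intro h0
  apply hne
  have h1 := h.star_pn.coeff_symm hz
  rw [star_star, h0] at h1
  have h2 : D.conjFn u (0 : C(X, ℂ)) = 0 := by simp [conjFn]
  rw [h2] at h1
  exact star_eq_zero.1 h1

theorem IsFamilySet.star_set {z : M} {S : Set M} (hS : D.IsFamilySet z S) (hz : IsSelfAdjoint z) :
    D.IsFamilySet z (star '' S) where
  pn := by rintro _ ⟨u, hu, rfl⟩; exact (hS.pn u hu).star_pn
  ne := by rintro _ ⟨u, hu, rfl⟩; exact (hS.pn u hu).coeff_star_ne hz (hS.ne u hu)
  orth := by
    rintro _ ⟨u, hu, rfl⟩ _ ⟨v, hv, rfl⟩ hne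
    rw [star_star, (hS.pn u hu).E_star_mul,
      hS.orth v hv u hu fun e => hne (by rw [e]), conjFn]
    simp

theorem star_image_star (S : Set M) : star '' (star '' S) = S := by
  rw [Set.image_image]; simp

theorem maximal_star {z : M} {S : Set M} (hz : IsSelfAdjoint z)
    (hmax : ∀ T, D.IsFamilySet z T → S ⊆ T → T ⊆ S) :
    ∀ T, D.IsFamilySet z T → star '' S ⊆ T → T ⊆ star '' S := by
  intro T hT hST
  have h := hmax _ (hT.star_set hz) (by
    rw [← star_image_star S]
    exact Set.image_mono hST)
  rw [← star_image_star T]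
  exact Set.image_mono h

end Data

end Vale.Agent.P078.AllMasa.Family
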