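import Vale.Agent.P078.AllMasa.Part
import Vale.Agent.P078.AllMasa.Family.Star

/-! The data for normalisers attached to a core. -/

namespace Vale.Agent.P078.AllMasa.Family

set_option linter.unusedSectionVars false

open Filter Topology ComplexOrder
open Vale.Agent.P078.Tracial

variable {M X : Type} [CStarAlgebra M] [PartialOrder M] [StarOrderedRing M]
variable [TopologicalSpace X] [CompactSpace X] [T2Space X] [TotallyDisconnectedSpace X]
variable (C : SCore M X)

theorem ofR_eq (f : C(X, ℝ)) : ofR f = toC f := by ext x; simp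

theorem toR_eq (f : C(X, ℂ)) : toR f = reC f := by ext x; simp

theorem ind_cell (π : DiscreteQuotient X) (i : π) :
    Family.ind (cell π i) = cellFn π i := by
  classical
  ext x
  rw [cellFn_apply]
  by_cases hx : π.proj x = i
  · rw [ind_of_mem (mem_cell.2 hx), if_pos hx]
  · rw [ind_of_not_mem (fun h => hx (mem_cell.1 h)), if_neg hx]

theorem φ_r_im (h : C(X, ℝ)) : (C.φ (C.r h)).im = 0 := by
  have nn : ∀ g : C(X, ℝ), 0 ≤ g → (C.φ (C.r g)).im = 0 := by
    intro g hg
    let s : C(X, ℝ) := ⟨fun x => Real.sqrt (g x), by fun_prop⟩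
    have hs : s * s = g := by
      ext x; exact Real.mul_self_sqrt (ContinuousMap.le_def.1 hg x)
    have := (Complex.nonneg_iff.1 (C.φ_pos (C.r s))).2
    rw [C.star_r, ← C.r_mul, hs] at this
    exact this.symm
  have e : h = (h ⊔ 0) - ((-h) ⊔ 0) := by
    ext x
    simp only [ContinuousMap.sub_apply, ContinuousMap.sup_apply, ContinuousMap.neg_apply,
      ContinuousMap.zero_apply]
    rcases le_total (h x) 0 with hh | hh
    · rw [max_eq_right hh, max_eq_left (neg_nonneg.2 hh)]; ring
    · rw [max_eq_left hh, max_eq_right (neg_nonpos.2 hh)]; ring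
  rw [e, C.r_sub, map_sub, Complex.sub_im, nn _ le_sup_right, nn _ le_sup_right, sub_zero]

theorem ι_decomp (f : C(X, ℂ)) :
    C.ι f = C.r (reC f) + Complex.I • C.r (reC (-(Complex.I • f))) := by
  rw [SCore.r, SCore.r, ← map_smul, ← map_add]
  congr 1
  ext x
  apply Complex.ext <;> simp

theorem φ_ι_star (f : C(X, ℂ)) : C.φ (C.ι (star f)) = starRingEnd ℂ (C.φ (C.ι f)) := by
  have h : star (C.ι f) = C.r (reC f) + (-Complex.I) • C.r (reC (-(Complex.I • f))) := by
    rw [ι_decomp C f, star_add, star_smul, C.star_r, C.star_r, Complex.star_def, Complex.conj_I]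
  have hr : ∀ g : C(X, ℝ), starRingEnd ℂ (C.φ (C.r g)) = C.φ (C.r g) := fun g =>
    Complex.conj_eq_iff_im.2 (φ_r_im C g)
  rw [map_star, h, ι_decomp C f]
  simp only [map_add, map_smul, map_mul, smul_eq_mul, hr, Complex.conj_I]

theorem φ_star (z : M) : C.φ (star z) = starRingEnd ℂ (C.φ z) := by
  rw [← C.φ_E, C.E_star, φ_ι_star, C.φ_E]

theorem ig_reC (f : C(X, ℂ)) : C.ig (reC f) = (C.φ (C.ι f)).re := by
  rw [ι_decomp C f, map_add, map_smul, Complex.add_re, smul_eq_mul, Complex.mul_re,
    φ_r_im C, Complex.I_re]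
  show C.ig (reC f) = C.ig (reC f) + _
  simp

theorem ig_Er' (z : M) : C.ig (reC (C.E z)) = C.tr z := by
  rw [ig_reC, C.φ_E]; rfl

/-- The integral as a linear map. -/
noncomputable def igL : C(X, ℝ) →ₗ[ℝ] ℝ where
  toFun := C.ig
  map_add' := C.ig_add
  map_smul' c f := by simp [C.ig_smul]

theorem le_of_ig {a b : C(X, ℝ)} (h : ∀ g, 0 ≤ g → C.ig (g * a) ≤ C.ig (g * b)) : a ≤ b := by
  set g := (a - b) ⊔ 0
  have hg : 0 ≤ g := le_sup_right
  have h1 := h g hg
  have h4 : g * g = g * (a - b) := by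
    ext x
    simp only [g, ContinuousMap.mul_apply, ContinuousMap.sup_apply, ContinuousMap.zero_apply]
    rcases le_total ((a - b) x) 0 with h | h
    · rw [sup_eq_right.2 h, zero_mul, zero_mul]
    · rw [sup_eq_left.2 h]
  have h5 : g * g = 0 := by
    refine C.eq_zero_of_ig_eq_zero (mul_nonneg hg hg)
      (le_antisymm ?_ (C.ig_nonneg (mul_nonneg hg hg)))
    rw [h4, mul_sub, C.ig_sub]
    linarith
  refine ContinuousMap.le_def.2 fun x => ?_
  have h6 : g x = 0 := mul_self_eq_zero.1 (by simpa using ContinuousMap.congr_fun h5 x)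
  have h7 : (a - b) x ≤ g x := ContinuousMap.le_def.1 (le_sup_left (a := a - b) (b := 0)) x
  rw [h6, ContinuousMap.sub_apply] at h7
  linarith

/-- Decreasing nets of functions have greatest lower bounds, as weak limits. -/
theorem exists_inf {κ : Type} [Preorder κ] (F : Filter κ) [F.NeBot]
    (hF : ∀ i, ∀ᶠ k in F, k ≤ i) (g : κ → C(X, ℝ)) {B : ℝ} (hB : ∀ k, ‖C.r (g k)‖ ≤ B)
    (hg : Monotone g) :
    ∃ m, (∀ k, m ≤ g k) ∧ ∀ a b,
      Tendsto (fun k => C.φ (a * C.r (g k) * b)) F (𝓝 (C.φ (a * C.r m * b))) := by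
  have e : ∀ h p : C(X, ℝ), (C.φ (C.r h * C.r p * 1)).re = C.ig (h * p) := by
    intro h p; rw [mul_one, ← C.r_mul]; rfl
  have one : ∀ U : Ultrafilter κ, (U : Filter κ) ≤ F →
      ∃ m, (∀ k, m ≤ g k) ∧ (∀ a b, Tendsto (fun k => C.φ (a * C.r (g k) * b)) U
        (𝓝 (C.φ (a * C.r m * b)))) := by
    intro U hU
    obtain ⟨w, -, hw⟩ := C.weakLimit U (fun k => C.r (g k)) B hB
    have hcomm : ∀ f, C.r f * w = w * C.r f := fun f => C.ext_weak fun a b => by
      have h1 := hw (a * C.r f) b
      have h2 := hw a (C.r f * b)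
      have h3 : (fun k => C.φ (a * C.r f * C.r (g k) * b)) =
          fun k => C.φ (a * C.r (g k) * (C.r f * b)) := by
        funext k
        rw [mul_assoc a, C.r_comm]
        simp only [mul_assoc]
      rw [h3] at h1
      have := tendsto_nhds_unique h1 h2
      simpa only [mul_assoc] using this
    have hsa : IsSelfAdjoint w := C.ext_weak fun a b => by
      have h1 := (Complex.continuous_conj.tendsto _).comp (hw (star b) (star a))
      have h3 : ∀ x : M, starRingEnd ℂ (C.φ (star b * x * star a)) = C.φ (a * star x * b) := by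
        intro x
        rw [← φ_star, star_mul, star_mul, star_star, star_star, mul_assoc]
      simp only [Function.comp_def, h3, C.star_r] at h1
      exact tendsto_nhds_unique h1 (hw a b)
    have hm : w = C.r (C.Er w) := by
      rw [SCore.r, ← C.E_eq_toC_Er hsa]
      exact C.eq_ι_E_of_comm hcomm
    refine ⟨C.Er w, fun k₀ => le_of_ig C fun h hh => ?_, fun a b => by rw [← hm]; exact hw a b⟩
    have t := (Complex.continuous_re.tendsto _).comp (hw (C.r h) 1)
    rw [hm] at t
    simp only [Function.comp_def, e] at t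
    refine le_of_tendsto t ?_
    filter_upwards [hU (hF k₀)] with k hk
    exact C.ig_mono (mul_le_mul_of_nonneg_left (hg hk) hh)
  obtain ⟨m, hm, hlim⟩ := one (Ultrafilter.of F) (Ultrafilter.of_le F)
  refine ⟨m, hm, fun a b => (tendsto_iff_ultrafilter _ _ _).2 fun U hU => ?_⟩
  obtain ⟨m', hm', hlim'⟩ := one U hU
  have key : ∀ {m m' : C(X, ℝ)} (U : Ultrafilter κ), (∀ k, m' ≤ g k) →
      (∀ a b, Tendsto (fun k => C.φ (a * C.r (g k) * b)) U (𝓝 (C.φ (a * C.r m * b)))) →
      m' ≤ m := by
    intro m m' U hb hl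
    refine le_of_ig C fun h hh => ?_
    have t := (Complex.continuous_re.tendsto _).comp (hl (C.r h) 1)
    simp only [Function.comp_def, e] at t
    exact ge_of_tendsto t
      (Eventually.of_forall fun k => C.ig_mono (mul_le_mul_of_nonneg_left (hb k) hh))
  have : m = m' := le_antisymm (key U hm hlim') (key _ hm' hlim)
  rw [this]
  exact hlim' a b

/-- The data of a core. -/
noncomputable def data : Data M X where
  ι := C.ι
  E := C.E
  ψ := igL C
  ψ_pos g hg := C.ig_nonneg hg
  ψ_faithful g hg h := C.eq_zero_of_ig_eq_zero hg h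
  E_ι := C.E_ι
  E_bimod := C.E_bimod
  E_star := C.E_star
  E_pos := C.E_pos
  E_faithful a h := C.φ_faithful a (by rw [← C.φ_E, h, map_zero, map_zero])
  masa a h := ⟨C.E a, (C.eq_ι_E_of_comm fun f => h (toC f)).symm⟩
  compact F a B hB := by
    obtain ⟨w, -, hw⟩ := C.weakLimit F a B hB
    refine ⟨w, fun u v => ?_⟩
    simp only [igL, LinearMap.coe_mk, AddHom.coe_mk, toR_eq, ig_Er']
    exact (Complex.continuous_re.tendsto _).comp (hw u v)
  monoLim g hg h0 := by
    have hB : ∀ π, ‖C.r (g π)‖ ≤ ‖g ⊤‖ := fun π => by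
      refine (C.norm_r_le _).trans ((ContinuousMap.norm_le _ (norm_nonneg _)).2 fun x => ?_)
      have h1 := ContinuousMap.le_def.1 (h0 π) x
      rw [Real.norm_of_nonneg h1]
      exact (ContinuousMap.le_def.1 (hg le_top) x).trans
        ((le_abs_self _).trans ((g ⊤).norm_coe_le_norm x))
    obtain ⟨m, hm, hlim⟩ := exists_inf C atBot (fun i => eventually_le_atBot i) g hB hg
    refine ⟨m, hm, fun u v => ?_⟩
    simp only [igL, LinearMap.coe_mk, AddHom.coe_mk, toR_eq, ig_Er', ofR_eq]
    exact (Complex.continuous_re.tendsto _).comp (hlim u v)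
  seqInf g hg h0 := by
    have hB : ∀ n, ‖C.r (g n)‖ ≤ ‖g 0‖ := fun n => by
      refine (C.norm_r_le _).trans ((ContinuousMap.norm_le _ (norm_nonneg _)).2 fun x => ?_)
      have h1 := ContinuousMap.le_def.1 (h0 n) x
      rw [Real.norm_of_nonneg h1]
      exact (ContinuousMap.le_def.1 (hg (Nat.zero_le n)) x).trans
        ((le_abs_self _).trans ((g 0).norm_coe_le_norm x))
    obtain ⟨m, hm, hlim⟩ := exists_inf C (κ := ℕᵒᵈ) atBot (fun i => eventually_le_atBot i)
      (fun n => g (OrderDual.ofDual n)) (fun k => hB _) (fun a b hab => hg hab)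
    refine ⟨m, fun n => hm (OrderDual.toDual n), fun ε hε => ?_⟩
    have t := (Complex.continuous_re.tendsto _).comp (hlim 1 1)
    simp only [Function.comp_def, one_mul, mul_one] at t
    obtain ⟨k, hk⟩ := (t.eventually (gt_mem_nhds (lt_add_of_pos_right _ hε))).exists
    exact ⟨OrderDual.ofDual k, hk⟩
  pinch z u v := by
    simp only [igL, LinearMap.coe_mk, AddHom.coe_mk, toR_eq, ig_Er', ofR_eq,
      finsum_eq_sum_of_fintype, ind_cell]
    exact (Complex.continuous_re.tendsto _).comp (C.pinch_tendsto u z v)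

end Vale.Agent.P078.AllMasa.Family
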