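import Vale.Agent.P078.AllMasa.Family.Exists

/-! Partial isometry normalisers: covariance of the expectation, coefficients, and the exact
Bessel identity for the positive map of an element. -/

namespace Vale.Agent.P078.AllMasa.Family

open TopologicalSpace Filter Topology ComplexOrder

set_option linter.unusedSectionVars false

variable {M X : Type*} [CStarAlgebra M] [PartialOrder M] [StarOrderedRing M]
variable [TopologicalSpace X] [CompactSpace X]

namespace Data

variable (D : Data M X)

/-- A normalising partial isometry. -/
structure IsPN (u : M) : Prop extends D.IsNorm u where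
  pi : u * star u * u = u

variable [T2Space X] [TotallyDisconnectedSpace X]

noncomputable local instance instFintypeCells'' (π : DiscreteQuotient X) : Fintype π :=
  Fintype.ofFinite _

theorem E_left (a : C(X, ℂ)) (z : M) : D.E (D.ι a * z) = a * D.E z := by
  simpa using D.E_bimod a 1 z

theorem E_right (a : C(X, ℂ)) (z : M) : D.E (z * D.ι a) = D.E z * a := by
  simpa using D.E_bimod 1 a z

theorem ι_comm (a b : C(X, ℂ)) : D.ι a * D.ι b = D.ι b * D.ι a := by
  rw [← map_mul, ← map_mul, mul_comm]

/-- The conjugated function. -/
noncomputable def conjFn (u : M) (a : C(X, ℂ)) : C(X, ℂ) := D.E (u * D.ι a * star u)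

variable {D}

theorem IsNorm.ι_conjFn {u : M} (h : D.IsNorm u) (a : C(X, ℂ)) :
    D.ι (D.conjFn u a) = u * D.ι a * star u := by
  obtain ⟨b, hb⟩ := h.conj a
  rw [conjFn, ← hb, D.E_ι]

theorem IsPN.sq_mem {u : M} (h : D.IsPN u) : ∃ b, D.ι b = u * star u := by
  obtain ⟨b, hb⟩ := h.conj 1
  exact ⟨b, by rw [hb, map_one, mul_one]⟩

theorem IsPN.sq_mem' {u : M} (h : D.IsPN u) : ∃ b, D.ι b = star u * u := by
  obtain ⟨b, hb⟩ := h.conj' 1
  exact ⟨b, by rw [hb, map_one, mul_one]⟩

/-- Elements of the subalgebra pass through the adjoint of a normaliser. -/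
theorem IsPN.ι_mul_star {u : M} (h : D.IsPN u) (a : C(X, ℂ)) :
    D.ι a * star u = star u * D.ι (D.conjFn u a) := by
  obtain ⟨b, hb⟩ := h.sq_mem'
  have h1 : star u * u * star u = star u := by
    have := congrArg star h.pi
    simpa [star_mul, mul_assoc] using this
  calc D.ι a * star u = D.ι a * (star u * u) * star u := by rw [mul_assoc, h1]
    _ = (star u * u) * D.ι a * star u := by rw [← hb, D.ι_comm]
    _ = star u * D.ι (D.conjFn u a) := by rw [h.ι_conjFn]; simp only [mul_assoc]

/-- Covariance of the expectation. -/
theorem IsPN.E_conj {u : M} (h : D.IsPN u) (a : M) :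
    D.ι (D.E (u * a * star u)) = u * D.ι (D.E a) * star u := by
  classical
  obtain ⟨b, hb⟩ := h.conj (D.E a)
  have key : D.E (u * D.ι (D.E a) * star u) = D.E (u * a * star u) := by
    refine sub_eq_zero.1 ?_
    have hfix : ∀ π : DiscreteQuotient X,
        D.E (u * (∑ᶠ i : π, D.P (cell π i) * a * D.P (cell π i)) * star u) =
          D.E (u * a * star u) := by
      intro π
      rw [finsum_eq_sum_of_fintype, Finset.mul_sum, Finset.sum_mul, map_sum]
      set θ : π → C(X, ℂ) := fun i => D.conjFn u (ofR (ind (cell π i)))
      have e : ∀ i, D.E (u * (D.P (cell π i) * a * D.P (cell π i)) * star u) =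
          θ i * D.E (u * a * star u) := fun i => by
        have e1 : u * D.P (cell π i) = D.ι (θ i) * u := by
          have := congrArg star (h.ι_mul_star (ofR (ind (cell π i))))
          rw [star_mul, star_mul, star_star] at this
          rw [P]
          rw [show star (D.ι (ofR (ind (cell π i)))) = D.ι (ofR (ind (cell π i))) from D.star_P _]
            at this
          rw [this, ← map_star]
          congr 2
          rw [conjFn, ← D.E_star, star_mul, star_mul, star_star]
          rw [show star (D.ι (ofR (ind (cell π i)))) = D.ι (ofR (ind (cell π i))) from D.star_P _,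
            ← mul_assoc]
          rfl
        have e2 : D.P (cell π i) * star u = star u * D.ι (θ i) := h.ι_mul_star _
        rw [show u * (D.P (cell π i) * a * D.P (cell π i)) * star u =
          (u * D.P (cell π i)) * a * (D.P (cell π i) * star u) by simp only [mul_assoc], e1, e2,
          show D.ι (θ i) * u * a * (star u * D.ι (θ i)) =
            D.ι (θ i) * (u * a * star u) * D.ι (θ i) by simp only [mul_assoc], D.E_bimod]
        have hi : θ i * θ i = θ i := by
          have : D.ι (θ i) * D.ι (θ i) = D.ι (θ i) := by
            rw [← mul_one (D.ι (θ i))]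
            conv_lhs => rw [h.ι_conjFn]
            rw [h.ι_conjFn]
            change u * D.P (cell π i) * star u * 1 * (u * D.P (cell π i) * star u * 1) =
              u * D.P (cell π i) * star u * 1
            simp only [mul_one]
            obtain ⟨c, hc⟩ := h.sq_mem'
            calc u * D.P (cell π i) * star u * (u * D.P (cell π i) * star u)
                = u * (D.P (cell π i) * (star u * u)) * D.P (cell π i) * star u := by
                  simp only [mul_assoc]
              _ = u * ((star u * u) * D.P (cell π i)) * D.P (cell π i) * star u := by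
                  rw [← hc, P, D.ι_comm]
              _ = (u * star u * u) * (D.P (cell π i) * D.P (cell π i)) * star u := by
                  simp only [mul_assoc]
              _ = _ := by rw [h.pi, D.P_idem]
          rw [← D.E_ι (θ i * θ i), map_mul, this, D.E_ι]
        rw [mul_right_comm, hi]
      simp only [e, ← Finset.sum_mul]
      have hs : D.ι (∑ i, θ i) = u * star u := by
        rw [map_sum]
        simp only [θ, h.ι_conjFn]
        rw [← Finset.sum_mul, ← Finset.mul_sum]
        rw [show ∑ i : π, D.ι (ofR (ind (cell π i))) = 1 from ?_, mul_one]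
        show ∑ i : π, D.P (cell π i) = 1
        rw [D.sum_P _ _ fun i j hij => cell_disjoint hij, sup_cells, D.P_top]
      rw [← D.E_left, hs]
      congr 1
      calc u * star u * (u * a * star u) = (u * star u * u) * a * star u := by simp only [mul_assoc]
        _ = _ := by rw [h.pi]
    set d := D.E (u * D.ι (D.E a) * star u) - D.E (u * a * star u)
    have ht : ∀ g : C(X, ℂ), D.ψ (toR (g * d)) = 0 := by
      intro g
      have h1 := D.pinch a (D.ι g * u) (star u)
      have e : (fun π : DiscreteQuotient X => D.ψ (toR (D.E (D.ι g * u *
          (∑ᶠ i : π, D.ι (ofR (ind (cell π i))) * a * D.ι (ofR (ind (cell π i)))) * star u)))) =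
          fun _ => D.ψ (toR (g * D.E (u * a * star u))) := by
        funext π
        rw [mul_assoc (D.ι g), mul_assoc (D.ι g), D.E_left]
        exact congrArg (fun f => D.ψ (toR (g * f))) (hfix π)
      rw [e] at h1
      have := tendsto_nhds_unique tendsto_const_nhds h1
      rw [mul_assoc (D.ι g), mul_assoc (D.ι g), D.E_left] at this
      rw [show toR (g * d) = toR (g * D.E (u * D.ι (D.E a) * star u)) -
        toR (g * D.E (u * a * star u)) by ext x; simp [d, mul_sub], map_sub, ← this, sub_self]
    have h2 := ht (star d)
    have h3 := D.ψ_faithful _ (ContinuousMap.le_def.2 fun x => by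
      simp [Complex.mul_re]; nlinarith [sq_nonneg (d x).re, sq_nonneg (d x).im]) h2
    ext x
    have h4 := ContinuousMap.congr_fun h3 x
    simp [Complex.mul_re] at h4
    apply Complex.ext
    · simp only [ContinuousMap.zero_apply, Complex.zero_re]
      nlinarith [sq_nonneg (d x).re, sq_nonneg (d x).im]
    · simp only [ContinuousMap.zero_apply, Complex.zero_im]
      nlinarith [sq_nonneg (d x).re, sq_nonneg (d x).im]
  rw [← key, ← hb, D.E_ι]

variable (D)

/-- A finite family of pairwise orthogonal normalising partial isometries. -/
structure IsFamily (F : Finset M) : Prop where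
  pn : ∀ u ∈ F, D.IsPN u
  orth : ∀ u ∈ F, ∀ v ∈ F, u ≠ v → D.E (u * star v) = 0

/-- The coefficient of an element. -/
noncomputable def coeff (z u : M) : C(X, ℂ) := D.E (z * star u)

/-- The residual of an element after a family. -/
noncomputable def rest (z : M) (F : Finset M) : M := z - ∑ u ∈ F, D.ι (D.coeff z u) * u

variable {D}

theorem coeff_mul_sq {u : M} (h : D.IsPN u) (z : M) :
    D.coeff z u * D.E (u * star u) = D.coeff z u := by
  obtain ⟨b, hb⟩ := h.sq_mem
  rw [← hb, D.E_ι, coeff, ← D.E_right, hb]
  congr 1
  have := congrArg star h.pi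
  simp only [star_mul, star_star] at this
  rw [mul_assoc, this]

theorem coeff_rest {z : M} {F : Finset M} (hF : D.IsFamily F) {u : M} (hu : u ∈ F) :
    D.coeff (D.rest z F) u = 0 := by
  classical
  rw [coeff, rest, sub_mul, map_sub, Finset.sum_mul, map_sum, Finset.sum_eq_single u]
  · rw [mul_assoc, D.E_left, coeff_mul_sq (hF.pn u hu), coeff, sub_self]
  · intro v hv hvu
    rw [mul_assoc, D.E_left, hF.orth v hv u hu hvu, mul_zero]
  · simp [hu]

/-- The exact Bessel identity. -/
theorem bessel {z : M} {F : Finset M} (hF : D.IsFamily F) (g : C(X, ℂ)) :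
    D.E (z * D.ι g * star z) =
      ∑ u ∈ F, D.coeff z u * star (D.coeff z u) * D.conjFn u g +
        D.E (D.rest z F * D.ι g * star (D.rest z F)) := by
  classical
  set r := D.rest z F
  set S := ∑ u ∈ F, D.ι (D.coeff z u) * u with hS
  have hz : z = S + r := by rw [hS]; simp [r, rest]
  have hstarι : ∀ a : C(X, ℂ), star (D.ι a) = D.ι (star a) := fun a => (map_star D.ι a).symm
  have key : ∀ (x : M), ∀ v ∈ F, D.E (x * D.ι g * star (D.ι (D.coeff z v) * v)) =
      D.E (x * star v) * D.conjFn v g * star (D.coeff z v) := by
    intro x v hv
    rw [star_mul, hstarι, ← mul_assoc, D.E_right, mul_assoc x, (hF.pn v hv).ι_mul_star,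
      ← mul_assoc, D.E_right]
  have hrS : D.E (r * D.ι g * star S) = 0 := by
    rw [hS, star_sum, Finset.mul_sum, map_sum]
    refine Finset.sum_eq_zero fun v hv => ?_
    rw [key r v hv]
    have := coeff_rest (z := z) hF hv
    rw [coeff] at this
    simp only [r, this, zero_mul]
  have hSr : D.E (S * D.ι g * star r) = 0 := by
    have h0 : ∀ g' : C(X, ℂ), D.E (r * D.ι g' * star S) = 0 → D.E (S * D.ι (star g') * star r) = 0 :=
      fun g' h' => by
        have := D.E_star (r * D.ι g' * star S)
        rw [h', star_zero, star_mul, star_mul, star_star, hstarι, ← mul_assoc] at this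
        exact this
    have hgen : D.E (r * D.ι (star g) * star S) = 0 := by
      rw [hS, star_sum, Finset.mul_sum, map_sum]
      refine Finset.sum_eq_zero fun v hv => ?_
      have e : D.E (r * star v) = 0 := by
        have := coeff_rest (z := z) hF hv
        rw [coeff] at this
        exact this
      rw [star_mul, hstarι, ← mul_assoc, D.E_right, mul_assoc r, (hF.pn v hv).ι_mul_star,
        ← mul_assoc, D.E_right, e, zero_mul, zero_mul]
    have := h0 (star g) hgen
    rwa [star_star] at this
  have hSS : D.E (S * D.ι g * star S) =
      ∑ u ∈ F, D.coeff z u * star (D.coeff z u) * D.conjFn u g := by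
    conv_lhs => rw [hS, star_sum, Finset.mul_sum, map_sum]
    refine Finset.sum_congr rfl fun v hv => ?_
    have e : D.E (S * star v) = D.coeff z v := by
      have : D.E (z * star v) = D.E (S * star v) + D.E (r * star v) := by
        conv_lhs => rw [hz, add_mul, map_add]
      have h2 := coeff_rest (z := z) hF hv
      rw [coeff] at h2
      rw [coeff, this, h2, add_zero]
    rw [key S v hv, e]
    ring
  conv_lhs => rw [hz]
  rw [add_mul, star_add, mul_add, add_mul, add_mul, map_add, map_add, map_add, hSr, hrS, hSS,
    add_zero, zero_add]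

end Data

end Vale.Agent.P078.AllMasa.Family
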