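import Mathlib

/-! The single atom cut: a positive additive map on clopen sets, whose largest atom does not vanish,
gives a Boolean homomorphism of clopen sets. -/

namespace Vale.Agent.P078.AllMasa.Family

open TopologicalSpace

set_option linter.unusedSectionVars false

variable {X : Type*} [TopologicalSpace X]

/-- The cell of a discrete quotient. -/
def cell (π : DiscreteQuotient X) (i : π) : Clopens X :=
  ⟨π.proj ⁻¹' {i}, π.isClopen_preimage _⟩

theorem mem_cell {π : DiscreteQuotient X} {i : π} {x : X} :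
    x ∈ cell π i ↔ π.proj x = i := Iff.rfl

theorem cell_le_cell {π π' : DiscreteQuotient X} (h : π' ≤ π) (i : π') :
    cell π' i ≤ cell π (DiscreteQuotient.ofLE h i) := fun x hx => by
  show π.proj x = DiscreteQuotient.ofLE h i
  rw [← (hx : π'.proj x = i), DiscreteQuotient.ofLE_proj]

theorem cell_disjoint {π : DiscreteQuotient X} {i j : π} (h : i ≠ j) :
    Disjoint (cell π i) (cell π j) := by
  rw [← Clopens.coe_disjoint, Set.disjoint_left]
  exact fun x hx hx' => h ((hx : π.proj x = i).symm.trans hx')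

/-- A cell below the quotient of a clopen set is inside or outside this set. -/
theorem cell_inside {π : DiscreteQuotient X} {f : Clopens X}
    (h : π ≤ DiscreteQuotient.ofIsClopen f.isClopen) (i : π) :
    cell π i ≤ f ∨ cell π i ≤ fᶜ := by
  obtain ⟨y, rfl⟩ := π.proj_surjective i
  by_cases hy : y ∈ f
  · left
    intro x hx
    have hr : π.toSetoid x y := Quotient.eq''.1 (hx : π.proj x = π.proj y)
    exact (h hr : (x ∈ f ↔ y ∈ f)).2 hy
  · right
    intro x hx
    have hr : π.toSetoid x y := Quotient.eq''.1 (hx : π.proj x = π.proj y)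
    show x ∈ (fᶜ : Clopens X)
    rw [← SetLike.mem_coe, Clopens.coe_compl]
    exact fun hxf => hy ((h hr : (x ∈ f ↔ y ∈ f)).1 hxf)

/-- A positive additive map on clopen sets. -/
structure PosMap (X : Type*) [TopologicalSpace X] where
  K : Clopens X → C(X, ℝ)
  nonneg : ∀ f, 0 ≤ K f
  add : ∀ f g, Disjoint f g → K (f ⊔ g) = K f + K g

/-- A faithful integral for which decreasing families have a greatest lower bound. -/
structure Mass (X : Type*) [TopologicalSpace X] where
  ψ : C(X, ℝ) →ₗ[ℝ] ℝ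
  pos : ∀ g, 0 ≤ g → 0 ≤ ψ g
  faithful : ∀ g, 0 ≤ g → ψ g = 0 → g = 0
  inf : ∀ g : DiscreteQuotient X → C(X, ℝ), Monotone g → (∀ π, 0 ≤ g π) →
    ∃ m, (∀ π, m ≤ g π) ∧ ∀ ε > 0, ∃ π, ψ (g π) < ψ m + ε

namespace Mass

variable (μ : Mass X)

theorem mono {a b : C(X, ℝ)} (h : a ≤ b) : μ.ψ a ≤ μ.ψ b := by
  have := μ.pos (b - a) (sub_nonneg.2 h)
  rw [map_sub] at this
  linarith

theorem eq_of_le {a b : C(X, ℝ)} (h : a ≤ b) (h' : μ.ψ b ≤ μ.ψ a) : a = b := by
  have h0 := μ.faithful (b - a) (sub_nonneg.2 h)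
    (by rw [map_sub]; linarith [μ.mono h])
  exact (sub_eq_zero.1 h0).symm

end Mass

namespace PosMap

variable (T : PosMap X) [CompactSpace X]

theorem mono {f g : Clopens X} (h : f ≤ g) : T.K f ≤ T.K g := by
  conv_rhs => rw [← sup_sdiff_cancel_right h, T.add _ _ disjoint_sdiff_self_right]
  exact le_add_of_nonneg_right (T.nonneg _)

variable [Nonempty X]

noncomputable local instance (π : DiscreteQuotient X) : Fintype π := Fintype.ofFinite _

/-- The largest cell inside `f`. -/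
noncomputable def g (f : Clopens X) (π : DiscreteQuotient X) : C(X, ℝ) :=
  ⟨fun x => Finset.univ.sup' Finset.univ_nonempty fun i : π => T.K (cell π i ⊓ f) x,
    Continuous.finset_sup'_apply _ fun i _ => (T.K _).continuous⟩

theorem le_g (f : Clopens X) {π : DiscreteQuotient X} (i : π) (x : X) :
    T.K (cell π i ⊓ f) x ≤ T.g f π x :=
  Finset.le_sup' (fun i : π => T.K (cell π i ⊓ f) x) (Finset.mem_univ i)

theorem g_le {f : Clopens X} {π : DiscreteQuotient X} {x : X} {c : ℝ}
    (h : ∀ i : π, T.K (cell π i ⊓ f) x ≤ c) : T.g f π x ≤ c :=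
  Finset.sup'_le Finset.univ_nonempty _ fun i _ => h i

theorem g_nonneg (f : Clopens X) (π : DiscreteQuotient X) : 0 ≤ T.g f π :=
  ContinuousMap.le_def.2 fun x =>
    (ContinuousMap.le_def.1 (T.nonneg _) x).trans (T.le_g f (π.proj x) x)

theorem g_mono (f : Clopens X) : Monotone (T.g f) := fun π' π h =>
  ContinuousMap.le_def.2 fun x => T.g_le fun i =>
    (ContinuousMap.le_def.1 (T.mono (inf_le_inf_right f (cell_le_cell h i))) x).trans
      (T.le_g f _ x)

theorem g_mono_left {f f' : Clopens X} (h : f ≤ f') (π : DiscreteQuotient X) :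
    T.g f π ≤ T.g f' π :=
  ContinuousMap.le_def.2 fun x => T.g_le fun i =>
    (ContinuousMap.le_def.1 (T.mono (inf_le_inf_left _ h)) x).trans (T.le_g f' i x)

theorem g_le_K (f : Clopens X) (π : DiscreteQuotient X) : T.g f π ≤ T.K f :=
  ContinuousMap.le_def.2 fun x => T.g_le fun _ =>
    ContinuousMap.le_def.1 (T.mono inf_le_right) x

variable (μ : Mass X)

/-- The largest atom inside `f`. -/
noncomputable def atom (f : Clopens X) : C(X, ℝ) :=
  (μ.inf _ (T.g_mono f) (T.g_nonneg f)).choose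

theorem atom_le_g (f : Clopens X) (π : DiscreteQuotient X) : T.atom μ f ≤ T.g f π :=
  (μ.inf _ (T.g_mono f) (T.g_nonneg f)).choose_spec.1 π

theorem exists_g_near (f : Clopens X) {ε : ℝ} (h : 0 < ε) :
    ∃ π, μ.ψ (T.g f π) < μ.ψ (T.atom μ f) + ε :=
  (μ.inf _ (T.g_mono f) (T.g_nonneg f)).choose_spec.2 ε h

theorem le_atom {f : Clopens X} {h : C(X, ℝ)} (hh : ∀ π, h ≤ T.g f π) : h ≤ T.atom μ f := by
  have h1 : T.atom μ f = T.atom μ f ⊔ h := by
    refine μ.eq_of_le le_sup_left (le_of_forall_pos_le_add fun ε hε => ?_)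
    obtain ⟨π, hπ⟩ := T.exists_g_near μ f hε
    exact (μ.mono (sup_le (T.atom_le_g μ f π) (hh π))).trans hπ.le
  rw [h1]
  exact le_sup_right

theorem atom_nonneg (f : Clopens X) : 0 ≤ T.atom μ f := T.le_atom μ fun π => T.g_nonneg f π

theorem atom_le_K (f : Clopens X) : T.atom μ f ≤ T.K f :=
  (T.atom_le_g μ f ⊤).trans (T.g_le_K f ⊤)

theorem atom_mono {f f' : Clopens X} (h : f ≤ f') : T.atom μ f ≤ T.atom μ f' :=
  T.le_atom μ fun π => (T.atom_le_g μ f π).trans (T.g_mono_left h π)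

theorem atom_sup {f f' : Clopens X} (_h : Disjoint f f') :
    T.atom μ (f ⊔ f') = T.atom μ f ⊔ T.atom μ f' := by
  refine (μ.eq_of_le (sup_le (T.atom_mono μ le_sup_left) (T.atom_mono μ le_sup_right))
    (le_of_forall_pos_le_add fun ε hε => ?_)).symm
  obtain ⟨π₁, h₁⟩ := T.exists_g_near μ f (half_pos hε)
  obtain ⟨π₂, h₂⟩ := T.exists_g_near μ f' (half_pos hε)
  set π := π₁ ⊓ π₂ ⊓ DiscreteQuotient.ofIsClopen f.isClopen with hπ
  have e1 : T.g (f ⊔ f') π ≤ T.g f π ⊔ T.g f' π := by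
    refine ContinuousMap.le_def.2 fun x => T.g_le fun i => ?_
    rw [ContinuousMap.sup_apply]
    rcases cell_inside (π := π) (f := f) inf_le_right i with hi | hi
    · refine le_sup_of_le_left (le_trans ?_ (T.le_g f i x))
      exact ContinuousMap.le_def.1 (T.mono (le_inf inf_le_left (inf_le_left.trans hi))) x
    · refine le_sup_of_le_right (le_trans ?_ (T.le_g f' i x))
      refine ContinuousMap.le_def.1 (T.mono (le_inf inf_le_left ?_)) x
      have : cell π i ⊓ f = ⊥ := (disjoint_compl_left.mono_left hi).eq_bot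
      rw [inf_sup_left, this, bot_sup_eq]
      exact inf_le_right
  have g1 : μ.ψ (T.g f π) < μ.ψ (T.atom μ f) + ε / 2 :=
    (μ.mono (T.g_mono f (inf_le_left.trans inf_le_left))).trans_lt h₁
  have g2 : μ.ψ (T.g f' π) < μ.ψ (T.atom μ f') + ε / 2 :=
    (μ.mono (T.g_mono f' (inf_le_left.trans inf_le_right))).trans_lt h₂
  have e2 : T.g f π ⊔ T.g f' π ≤ (T.atom μ f ⊔ T.atom μ f') +
      ((T.g f π - T.atom μ f) + (T.g f' π - T.atom μ f')) := by
    refine ContinuousMap.le_def.2 fun x => ?_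
    have a1 := ContinuousMap.le_def.1 (T.atom_le_g μ f π) x
    have a2 := ContinuousMap.le_def.1 (T.atom_le_g μ f' π) x
    simp only [ContinuousMap.sup_apply, ContinuousMap.add_apply, ContinuousMap.sub_apply]
    refine sup_le ?_ ?_
    · linarith [le_sup_left (a := T.atom μ f x) (b := T.atom μ f' x)]
    · linarith [le_sup_right (a := T.atom μ f x) (b := T.atom μ f' x)]
  have e3 := μ.mono ((T.atom_le_g μ (f ⊔ f') π).trans (e1.trans e2))
  simp only [map_add, map_sub] at e3
  linarith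

theorem exists_atom_cell {π : DiscreteQuotient X} (x : X) :
    ∃ i : π, T.atom μ ⊤ x ≤ T.atom μ (cell π i) x := by
  obtain ⟨i, -, hi⟩ := Finset.exists_max_image (Finset.univ : Finset π)
    (fun i => T.atom μ (cell π i) x) Finset.univ_nonempty
  classical
  refine ⟨i, ?_⟩
  have key : ∀ s : Finset π, T.atom μ (s.sup (cell π)) x ≤ T.atom μ (cell π i) x := by
    intro s
    induction s using Finset.induction_on with
    | empty => exact ContinuousMap.le_def.1 (T.atom_mono μ bot_le) x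
    | insert a s ha ih =>
      rw [Finset.sup_insert, T.atom_sup μ (Finset.disjoint_sup_right.2 fun j hj =>
        cell_disjoint (fun e : a = j => ha (e ▸ hj))), ContinuousMap.sup_apply]
      exact sup_le (hi a (Finset.mem_univ a)) ih
  have : (Finset.univ.sup (cell π)) = ⊤ := top_le_iff.1 fun y _ =>
    (Finset.le_sup (f := cell π) (Finset.mem_univ (π.proj y))) (mem_cell.2 rfl)
  simpa [this] using key Finset.univ

variable [T2Space X] [TotallyDisconnectedSpace X]

/-- A cut with a single atom. -/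
structure Cut (T : PosMap X) where
  e : Clopens X
  p : Clopens X
  m : ℝ
  m_pos : 0 < m
  p_ne : p ≠ ⊥
  β : Clopens X → Clopens X
  β_e : β e = p
  β_top : β ⊤ = p
  β_le : ∀ f, β f ≤ p
  β_inf : ∀ f f', β (f ⊓ f') = β f ⊓ β f'
  β_sup : ∀ f f', β (f ⊔ f') = β f ⊔ β f'
  β_bot : β ⊥ = ⊥
  le_K : ∀ f, ∀ x ∈ β f, m ≤ T.K f x

theorem exists_cut (h : T.atom μ ⊤ ≠ 0) : Nonempty (Cut T) := by
  classical
  obtain ⟨π, y, hy, hπ⟩ : ∃ π : DiscreteQuotient X, ∃ y,
      0 < T.atom μ ⊤ y ∧ T.g ⊤ π y < 3 / 2 * T.atom μ ⊤ y := by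
    by_contra hc
    push Not at hc
    have hpos : 0 < μ.ψ (T.atom μ ⊤) := (μ.pos _ (T.atom_nonneg μ ⊤)).lt_of_ne
      fun e => h (μ.faithful _ (T.atom_nonneg μ ⊤) e.symm)
    obtain ⟨π, hπ⟩ := T.exists_g_near μ ⊤ (half_pos hpos)
    have := μ.mono (a := (3 / 2 : ℝ) • T.atom μ ⊤) (b := T.g ⊤ π)
      (ContinuousMap.le_def.2 fun y => by
        rcases (ContinuousMap.le_def.1 (T.atom_nonneg μ ⊤) y).lt_or_eq with hy | hy
        · simpa using hc π y hy
        · simp only [ContinuousMap.smul_apply, smul_eq_mul]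
          simp only [ContinuousMap.zero_apply] at hy
          rw [← hy, mul_zero]
          exact ContinuousMap.le_def.1 (T.g_nonneg ⊤ π) y)
    rw [map_smul, smul_eq_mul] at this
    linarith
  obtain ⟨i, hi⟩ := T.exists_atom_cell μ (π := π) y
  set a := T.atom μ ⊤ y
  set e := cell π i
  have hK : T.K e y < 3 / 2 * a := by
    have := T.le_g ⊤ i y
    rw [inf_top_eq] at this
    linarith
  have hopen : IsOpen ({x | 4 / 5 * a < T.atom μ e x} ∩ {x | T.K e x < 8 / 5 * a}) :=
    (isOpen_lt continuous_const (T.atom μ e).continuous).inter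
      (isOpen_lt (T.K e).continuous continuous_const)
  obtain ⟨P, hP, hyP, hPsub⟩ := compact_exists_isClopen_in_isOpen hopen
    (x := y) ⟨by simp only [Set.mem_ofPred_eq]; linarith,
      by simp only [Set.mem_ofPred_eq]; linarith⟩
  set p : Clopens X := ⟨P, hP⟩
  set m := 4 / 5 * a
  -- exactly one side of each clopen set carries the atom
  have one : ∀ f, ∀ x ∈ P,
      (m ≤ T.atom μ (f ⊓ e) x ↔ ¬ m ≤ T.atom μ (fᶜ ⊓ e) x) := by
    intro f x hx
    have hdis : Disjoint (f ⊓ e) (fᶜ ⊓ e) :=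
      (disjoint_compl_right.mono inf_le_left inf_le_left)
    have hu : f ⊓ e ⊔ fᶜ ⊓ e = e := by rw [← inf_sup_right, sup_compl_eq_top, top_inf_eq]
    have h1 := T.atom_sup μ hdis
    have h2 := T.add _ _ hdis
    rw [hu] at h1 h2
    obtain ⟨hxa, hxK⟩ := hPsub hx
    simp only [Set.mem_ofPred_eq] at hxa hxK
    rw [h1, ContinuousMap.sup_apply] at hxa
    rw [h2, ContinuousMap.add_apply] at hxK
    have b1 := ContinuousMap.le_def.1 (T.atom_le_K μ (f ⊓ e)) x
    have b2 := ContinuousMap.le_def.1 (T.atom_le_K μ (fᶜ ⊓ e)) x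
    constructor
    · intro h3 h4
      simp only [m] at h3 h4
      linarith
    · intro h3
      rcases lt_sup_iff.1 hxa with h4 | h4
      · exact h4.le
      · exact absurd h4.le h3
  have hcl : ∀ f, IsClopen {x | x ∈ P ∧ m ≤ T.atom μ (f ⊓ e) x} := by
    intro f
    have hc : ∀ f', IsClosed {x | x ∈ P ∧ m ≤ T.atom μ (f' ⊓ e) x} := fun f' =>
      hP.1.inter (isClosed_le continuous_const (T.atom μ _).continuous)
    refine ⟨hc f, ?_⟩
    have : {x | x ∈ P ∧ m ≤ T.atom μ (f ⊓ e) x} = P ∩ {x | x ∈ P ∧ m ≤ T.atom μ (fᶜ ⊓ e) x}ᶜ := by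
      ext x
      constructor
      · rintro ⟨hx, hm⟩
        exact ⟨hx, fun h' => (one f x hx).1 hm h'.2⟩
      · rintro ⟨hx, hn⟩
        exact ⟨hx, (one f x hx).2 fun h' => hn ⟨hx, h'⟩⟩
    rw [this]
    exact hP.2.inter (hc fᶜ).isOpen_compl
  let β : Clopens X → Clopens X := fun f => ⟨_, hcl f⟩
  have hmono : ∀ f f', f ≤ f' → β f ≤ β f' := fun f f' hff x hx =>
    ⟨hx.1, hx.2.trans (ContinuousMap.le_def.1 (T.atom_mono μ (inf_le_inf_right e hff)) x)⟩
  have hsup : ∀ f f', β (f ⊔ f') = β f ⊔ β f' := by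
    intro f f'
    refine le_antisymm (fun x hx => ?_) (sup_le (hmono _ _ le_sup_left) (hmono _ _ le_sup_right))
    obtain ⟨hxP, hxm⟩ := hx
    have hd : Disjoint (f ⊓ e) ((f' \ f) ⊓ e) :=
      disjoint_sdiff_self_right.mono inf_le_left inf_le_left
    have hu : f ⊓ e ⊔ (f' \ f) ⊓ e = (f ⊔ f') ⊓ e := by
      rw [← inf_sup_right, sup_sdiff_self_right]
    rw [← hu, T.atom_sup μ hd, ContinuousMap.sup_apply] at hxm
    rcases le_sup_iff.1 hxm with h1 | h1
    · exact Or.inl ⟨hxP, h1⟩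
    · exact Or.inr ⟨hxP,
        h1.trans (ContinuousMap.le_def.1 (T.atom_mono μ (inf_le_inf_right e sdiff_le)) x)⟩
  have hcompl : ∀ f, ∀ x, x ∈ β f → x ∉ β fᶜ := fun f x hx hx' => (one f x hx.1).1 hx.2 hx'.2
  have hbot : β ⊥ = ⊥ := le_bot_iff.1 fun x hx => by
    have := ContinuousMap.le_def.1 (T.atom_le_K μ (⊥ ⊓ e)) x
    have h0 : T.K (⊥ : Clopens X) = 0 := by simpa using T.add ⊥ ⊥ disjoint_bot_left
    rw [bot_inf_eq, h0, ContinuousMap.zero_apply] at this
    have hm := hx.2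
    rw [bot_inf_eq] at hm
    exfalso
    simp only [m] at hm
    linarith
  have he : β e = p := le_antisymm (fun x hx => hx.1) fun x hx => by
    refine ⟨hx, ?_⟩
    rw [inf_idem]
    exact (hPsub hx).1.le
  refine ⟨⟨e, p, m, by simp only [m]; linarith, fun hp => ?_, β, he, ?_, fun f x hx => hx.1,
    fun f f' => ?_, hsup, hbot, fun f x hx => ?_⟩⟩
  · have : y ∈ p := hyP
    rw [hp] at this
    exact this
  · exact le_antisymm (fun x hx => hx.1) (he ▸ hmono e ⊤ le_top)
  · refine le_antisymm (le_inf (hmono _ _ inf_le_left) (hmono _ _ inf_le_right)) fun x hx => ?_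
    have hx1 : x ∈ β f := hx.1
    have hx2 : x ∈ β f' := hx.2
    have hsplit : f = f ⊓ f' ⊔ f ⊓ f'ᶜ := by
      rw [← inf_sup_left, sup_compl_eq_top, inf_top_eq]
    rw [hsplit, hsup] at hx1
    rcases hx1 with h1 | h1
    · exact h1
    · exact absurd (hmono _ _ inf_le_right h1) (hcompl f' x hx2)
  · exact hx.2.trans
      (ContinuousMap.le_def.1 ((T.atom_le_K μ _).trans (T.mono inf_le_left)) x)

end PosMap

end Vale.Agent.P078.AllMasa.Family
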