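import Vale.Agent.P078.AllMasa.Family.Cut

/-! The abstract data of a maximal abelian subalgebra with a faithful normal expectation, as needed
for the construction of normalisers. -/

namespace Vale.Agent.P078.AllMasa.Family

open TopologicalSpace Filter Topology ComplexOrder

set_option linter.unusedSectionVars false

variable {M X : Type*} [CStarAlgebra M] [PartialOrder M] [StarOrderedRing M]
variable [TopologicalSpace X] [CompactSpace X]

/-- Real functions as complex functions. -/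
noncomputable def ofR (f : C(X, ℝ)) : C(X, ℂ) := ⟨fun x => (f x : ℂ), by fun_prop⟩

/-- Real part of a complex function. -/
noncomputable def toR (f : C(X, ℂ)) : C(X, ℝ) := ⟨fun x => (f x).re, by fun_prop⟩

@[simp] theorem ofR_apply (f : C(X, ℝ)) (x : X) : ofR f x = (f x : ℂ) := rfl

@[simp] theorem toR_apply (f : C(X, ℂ)) (x : X) : toR f x = (f x).re := rfl

/-- The indicator of a clopen set. -/
noncomputable def ind (f : Clopens X) : C(X, ℝ) :=
  ⟨(f : Set X).indicator 1, continuous_const.indicator (fun x hx => by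
    rw [f.isClopen.frontier_eq] at hx
    exact absurd hx (Set.notMem_empty x))⟩

theorem ind_of_mem {f : Clopens X} {x : X} (h : x ∈ f) : ind f x = 1 := by
  simp [ind, h]

theorem ind_of_not_mem {f : Clopens X} {x : X} (h : x ∉ f) : ind f x = 0 := by
  simp [ind, h]

theorem ind_nonneg (f : Clopens X) : 0 ≤ ind f := ContinuousMap.le_def.2 fun x => by
  by_cases h : x ∈ f <;> simp [ind_of_mem, ind_of_not_mem, h]

theorem ind_mul (f g : Clopens X) : ind f * ind g = ind (f ⊓ g) := by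
  ext x
  by_cases hf : x ∈ f <;> by_cases hg : x ∈ g
  · rw [ContinuousMap.mul_apply, ind_of_mem hf, ind_of_mem hg,
      ind_of_mem (show x ∈ f ⊓ g from ⟨hf, hg⟩), mul_one]
  all_goals
    rw [ContinuousMap.mul_apply, ind_of_not_mem (f := f ⊓ g) (fun h => by
      first | exact hf h.1 | exact hg h.2)]
    first | rw [ind_of_not_mem hf, zero_mul] | rw [ind_of_not_mem hg, mul_zero]

theorem ind_sup {f g : Clopens X} (h : Disjoint f g) : ind (f ⊔ g) = ind f + ind g := by
  ext x
  rw [← Clopens.coe_disjoint, Set.disjoint_left] at h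
  by_cases hf : x ∈ f
  · rw [ContinuousMap.add_apply, ind_of_mem hf, ind_of_not_mem (h hf),
      ind_of_mem (show x ∈ f ⊔ g from Or.inl hf), add_zero]
  · by_cases hg : x ∈ g
    · rw [ContinuousMap.add_apply, ind_of_not_mem hf, ind_of_mem hg,
        ind_of_mem (show x ∈ f ⊔ g from Or.inr hg), zero_add]
    · rw [ContinuousMap.add_apply, ind_of_not_mem hf, ind_of_not_mem hg,
        ind_of_not_mem (show x ∉ f ⊔ g from fun h' => Or.elim (h' : x ∈ f ∨ x ∈ g) hf hg), add_zero]

theorem ind_top : ind (⊤ : Clopens X) = 1 := by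
  ext x
  exact ind_of_mem (show x ∈ (⊤ : Clopens X) from trivial)

theorem ind_bot : ind (⊥ : Clopens X) = 0 := by
  ext x
  exact ind_of_not_mem id

/-- A maximal abelian subalgebra `C(X)` with faithful expectation, and the three limit properties
that a von Neumann algebra provides. -/
structure Data (M X : Type*) [CStarAlgebra M] [PartialOrder M] [StarOrderedRing M]
    [TopologicalSpace X] [CompactSpace X] where
  ι : C(X, ℂ) →⋆ₐ[ℂ] M
  E : M →L[ℂ] C(X, ℂ)
  ψ : C(X, ℝ) →ₗ[ℝ] ℝ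
  ψ_pos : ∀ g, 0 ≤ g → 0 ≤ ψ g
  ψ_faithful : ∀ g, 0 ≤ g → ψ g = 0 → g = 0
  E_ι : ∀ f, E (ι f) = f
  E_bimod : ∀ f g z, E (ι f * z * ι g) = f * E z * g
  E_star : ∀ z, E (star z) = star (E z)
  E_pos : ∀ a x, 0 ≤ E (star a * a) x
  E_faithful : ∀ a, E (star a * a) = 0 → a = 0
  masa : ∀ a, (∀ f, ι f * a = a * ι f) → ∃ f, ι f = a
  compact : ∀ (F : Ultrafilter (DiscreteQuotient X)) (a : DiscreteQuotient X → M) (C : ℝ),
    (∀ π, ‖a π‖ ≤ C) → ∃ w, ∀ u v, Tendsto (fun π => ψ (toR (E (u * a π * v)))) F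
      (𝓝 (ψ (toR (E (u * w * v)))))
  monoLim : ∀ g : DiscreteQuotient X → C(X, ℝ), Monotone g → (∀ π, 0 ≤ g π) →
    ∃ m, (∀ π, m ≤ g π) ∧ ∀ u v, Tendsto (fun π => ψ (toR (E (u * ι (ofR (g π)) * v)))) atBot
      (𝓝 (ψ (toR (E (u * ι (ofR m) * v)))))
  seqInf : ∀ g : ℕ → C(X, ℝ), Antitone g → (∀ n, 0 ≤ g n) →
    ∃ m, (∀ n, m ≤ g n) ∧ ∀ ε > 0, ∃ n, ψ (g n) < ψ m + ε
  pinch : ∀ z u v, Tendsto (fun π : DiscreteQuotient X => ψ (toR (E (u *
      (∑ᶠ i : π, ι (ofR (ind (cell π i))) * z * ι (ofR (ind (cell π i)))) * v)))) atBot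
      (𝓝 (ψ (toR (E (u * ι (E z) * v)))))

namespace Data

variable (D : Data M X)

/-- The projection of a clopen set. -/
noncomputable def P (f : Clopens X) : M := D.ι (ofR (ind f))

/-- The test functional. -/
noncomputable def φ (z : M) : ℝ := D.ψ (toR (D.E z))

theorem φ_add (a b : M) : D.φ (a + b) = D.φ a + D.φ b := by
  have : toR (D.E (a + b)) = toR (D.E a) + toR (D.E b) := by ext x; simp
  rw [φ, φ, φ, this, map_add]

theorem φ_sub (a b : M) : D.φ (a - b) = D.φ a - D.φ b := by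
  have : toR (D.E (a - b)) = toR (D.E a) - toR (D.E b) := by ext x; simp
  rw [φ, φ, φ, this, map_sub]

theorem φ_faithful {a : M} (h : D.φ (star a * a) = 0) : a = 0 := by
  apply D.E_faithful
  have h1 := D.ψ_faithful (toR (D.E (star a * a)))
    (ContinuousMap.le_def.2 fun x => (Complex.nonneg_iff.1 (D.E_pos a x)).1) h
  ext x
  apply Complex.ext
  · simpa using ContinuousMap.congr_fun h1 x
  · simpa using (Complex.nonneg_iff.1 (D.E_pos a x)).2.symm

/-- Elements with the same test values are equal. -/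
theorem eq_of_test {a b : M} (h : ∀ u v, D.φ (u * a * v) = D.φ (u * b * v)) : a = b := by
  refine sub_eq_zero.1 (D.φ_faithful ?_)
  have := h (star (a - b)) 1
  rw [mul_one, mul_one] at this
  rw [mul_sub, φ_sub, this, sub_self]

theorem star_P (f : Clopens X) : star (D.P f) = D.P f := by
  rw [P, ← map_star]
  congr 1
  ext x
  simp

theorem P_mul (f g : Clopens X) : D.P f * D.P g = D.P (f ⊓ g) := by
  rw [P, P, P, ← map_mul, ← ind_mul]
  congr 1
  ext x
  simp

theorem P_idem (f : Clopens X) : D.P f * D.P f = D.P f := by rw [P_mul, inf_idem]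

theorem P_sup {f g : Clopens X} (h : Disjoint f g) : D.P (f ⊔ g) = D.P f + D.P g := by
  rw [P, P, P, ← map_add, ind_sup h]
  congr 1
  ext x
  simp

theorem P_top : D.P ⊤ = 1 := by
  have : ofR (1 : C(X, ℝ)) = 1 := by ext x; simp
  rw [P, ind_top, this, map_one]

theorem P_bot : D.P ⊥ = 0 := by
  have : ofR (0 : C(X, ℝ)) = 0 := by ext x; simp
  rw [P, ind_bot, this, map_zero]

variable [T2Space X] [TotallyDisconnectedSpace X]

/-- Every function is nearly constant on the cells of some quotient. -/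
theorem exists_fine (g : C(X, ℂ)) {ε : ℝ} (hε : 0 < ε) :
    ∃ π : DiscreteQuotient X, ∀ x y, π.proj x = π.proj y → ‖g x - g y‖ < ε := by
  classical
  have hU : ∀ x : X, ∃ U : Set X, IsClopen U ∧ x ∈ U ∧ U ⊆ {y | ‖g y - g x‖ < ε / 2} := fun x => by
    obtain ⟨U, h1, h2, h3⟩ := compact_exists_isClopen_in_isOpen
      (isOpen_lt (by fun_prop : Continuous fun y => ‖g y - g x‖) continuous_const)
      (x := x) (U := {y | ‖g y - g x‖ < ε / 2}) (by simpa using half_pos hε)
    exact ⟨U, h1, h2, h3⟩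
  choose U hU1 hU2 hU3 using hU
  obtain ⟨t, ht⟩ := isCompact_univ.elim_finite_subcover U (fun x => (hU1 x).2)
    (fun x _ => Set.mem_iUnion.2 ⟨x, hU2 x⟩)
  refine ⟨t.inf fun x => DiscreteQuotient.ofIsClopen (hU1 x), fun x y hxy => ?_⟩
  obtain ⟨c, hc, hxc⟩ := Set.mem_iUnion₂.1 (ht (Set.mem_univ x))
  have hle : t.inf (fun x => DiscreteQuotient.ofIsClopen (hU1 x)) ≤
      DiscreteQuotient.ofIsClopen (hU1 c) := Finset.inf_le hc
  have hyc : y ∈ U c := (hle (Quotient.eq''.1 hxy) : (x ∈ U c ↔ y ∈ U c)).1 hxc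
  have hx' : ‖g x - g c‖ < ε / 2 := hU3 c hxc
  have hy' : ‖g y - g c‖ < ε / 2 := hU3 c hyc
  calc ‖g x - g y‖ = ‖(g x - g c) - (g y - g c)‖ := by rw [sub_sub_sub_cancel_right]
    _ ≤ ‖g x - g c‖ + ‖g y - g c‖ := norm_sub_le _ _
    _ < ε := by linarith

theorem exists_step (g : C(X, ℂ)) {ε : ℝ} (hε : 0 < ε) :
    ∃ (π : DiscreteQuotient X) (_ : Fintype π) (c : π → ℂ),
      ‖g - ∑ i, c i • ofR (ind (cell π i))‖ ≤ ε := by
  classical
  obtain ⟨π, hπ⟩ := exists_fine g hε
  refine ⟨π, Fintype.ofFinite π, fun i => g (π.proj_surjective i).choose, ?_⟩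
  refine (ContinuousMap.norm_le _ hε.le).2 fun x => ?_
  rw [ContinuousMap.sub_apply, ContinuousMap.sum_apply, Finset.sum_eq_single (π.proj x)]
  · rw [ContinuousMap.smul_apply, ofR_apply, ind_of_mem (mem_cell.2 rfl), Complex.ofReal_one,
      smul_eq_mul, mul_one]
    exact (hπ _ _ (π.proj_surjective _).choose_spec.symm).le
  · intro i _ hi
    rw [ContinuousMap.smul_apply, ofR_apply, ind_of_not_mem (fun h => hi (mem_cell.1 h).symm),
      Complex.ofReal_zero, smul_zero]
  · simp

/-- Commutation with all projections gives commutation with the subalgebra. -/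
theorem comm_of_P {a : M} (h : ∀ f, D.P f * a = a * D.P f) (g : C(X, ℂ)) :
    D.ι g * a = a * D.ι g := by
  refine sub_eq_zero.1 (norm_eq_zero.1 (le_antisymm (le_of_forall_pos_le_add fun ε hε => ?_)
    (norm_nonneg _)))
  obtain ⟨π, _, c, hc⟩ := exists_step g (div_pos hε (by positivity : 0 < 2 * ‖a‖ + 1))
  set s := ∑ i, c i • ofR (ind (cell π i))
  have hs : D.ι s * a = a * D.ι s := by
    simp only [s, map_sum, map_smul, Finset.sum_mul, Finset.mul_sum, smul_mul_assoc, mul_smul_comm]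
    exact Finset.sum_congr rfl fun i _ => congrArg _ (h _)
  have e : D.ι g * a - a * D.ι g = D.ι (g - s) * a - a * D.ι (g - s) := by
    rw [map_sub, sub_mul, mul_sub, hs]; abel
  have hn : ‖D.ι (g - s)‖ ≤ ε / (2 * ‖a‖ + 1) :=
    (NonUnitalStarAlgHom.norm_apply_le D.ι _).trans hc
  rw [zero_add, e]
  refine (norm_sub_le _ _).trans ?_
  calc ‖D.ι (g - s) * a‖ + ‖a * D.ι (g - s)‖
      ≤ 2 * ‖a‖ * (ε / (2 * ‖a‖ + 1)) := by
        refine (add_le_add (norm_mul_le _ _) (norm_mul_le _ _)).trans ?_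
        nlinarith [norm_nonneg a, norm_nonneg (D.ι (g - s))]
    _ ≤ ε := by
        rw [mul_div_assoc', div_le_iff₀ (by positivity)]
        nlinarith [norm_nonneg a]

theorem mem_of_P {a : M} (h : ∀ f, D.P f * a = a * D.P f) : ∃ f, D.ι f = a :=
  D.masa a (D.comm_of_P h)

theorem mono_test {g : DiscreteQuotient X → C(X, ℝ)} (hg : Monotone g) (h0 : ∀ π, 0 ≤ g π) :
    ∃ m, (∀ π, m ≤ g π) ∧ ∀ ε > 0, ∃ π, D.ψ (g π) < D.ψ m + ε := by
  obtain ⟨m, h1, h2⟩ := D.monoLim g hg h0
  refine ⟨m, h1, fun ε hε => ?_⟩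
  have key : ∀ f : C(X, ℝ), toR (D.E (1 * D.ι (ofR f) * 1)) = f := fun f => by
    rw [one_mul, mul_one, D.E_ι]; ext x; simp
  have := h2 1 1
  simp only [key] at this
  exact (this.eventually (gt_mem_nhds (lt_add_of_pos_right _ hε))).exists

/-- The mass of the data. -/
noncomputable def mass : Mass X where
  ψ := D.ψ
  pos := D.ψ_pos
  faithful := D.ψ_faithful
  inf _ hg h0 := D.mono_test hg h0

/-- The positive map of an element. -/
noncomputable def posMap (z : M) : PosMap X where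
  K f := toR (D.E (z * D.P f * star z))
  nonneg f := ContinuousMap.le_def.2 fun x => by
    have : z * D.P f * star z = star (D.P f * star z) * (D.P f * star z) := by
      rw [star_mul, star_star, D.star_P, mul_assoc z (D.P f) (D.P f * star z), ← mul_assoc (D.P f),
        D.P_idem, mul_assoc]
    rw [this]
    exact (Complex.nonneg_iff.1 (D.E_pos _ x)).1
  add f g h := by
    ext x
    simp [D.P_sup h, mul_add, add_mul]

end Data

end Vale.Agent.P078.AllMasa.Family
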