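import Vale.Agent.P078.AllMasa.Family.Intertwiner

/-! A nonvanishing atomic part gives a normaliser which is not orthogonal to the element. -/

namespace Vale.Agent.P078.AllMasa.Family

open TopologicalSpace Filter Topology ComplexOrder

set_option linter.unusedSectionVars false

variable {M X : Type*} [CStarAlgebra M] [PartialOrder M] [StarOrderedRing M]
variable [TopologicalSpace X] [CompactSpace X]

namespace Data

variable (D : Data M X)

/-- `v` conjugates the subalgebra into itself in both directions. -/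
structure IsNorm (v : M) : Prop where
  conj : ∀ a : C(X, ℂ), ∃ b, D.ι b = v * D.ι a * star v
  conj' : ∀ a : C(X, ℂ), ∃ b, D.ι b = star v * D.ι a * v

variable [T2Space X] [TotallyDisconnectedSpace X] [Nonempty X]

noncomputable local instance instFintypeCells' (π : DiscreteQuotient X) : Fintype π :=
  Fintype.ofFinite _

theorem second_atom_ne_zero {w : M} {f : Clopens X → Clopens X}
    (hw : ∀ g, D.P (f g) * w = w * D.P g) (hw0 : w ≠ 0) :
    (D.posMap (star w)).atom D.mass ⊤ ≠ 0 := by
  classical
  intro h0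
  apply hw0
  set T := D.posMap (star w)
  have hb : ∀ g, ∃ b, D.ι b = star w * D.P g * w ∧ ofR (T.K g) = b := fun g => by
    obtain ⟨b, hb⟩ := D.intertwiner_mem hw (ofR (ind g))
    refine ⟨b, hb, ?_⟩
    have hE : D.E (star w * D.P g * w) = b := by rw [← D.E_ι b, hb]; rfl
    have hsa : star b = b := by
      rw [← hE, ← D.E_star]
      congr 1
      rw [star_mul, star_mul, star_star, D.star_P, mul_assoc]
    ext x
    have him : (b x).im = 0 := by
      have hc := congrArg Complex.im (ContinuousMap.congr_fun hsa x)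
      simp at hc
      linarith
    apply Complex.ext
    · rw [ofR_apply, Complex.ofReal_re, ← hE]
      show (toR (D.E (star w * D.P g * star (star w)))) x = _
      rw [star_star]
      rfl
    · rw [ofR_apply, Complex.ofReal_im, him]
  have hsum : ∀ π : DiscreteQuotient X,
      D.φ (star w * (∑ᶠ i : π, D.P (cell π i) * (w * star w) * D.P (cell π i)) * w) =
        D.ψ (∑ i : π, T.K (cell π i) * T.K (cell π i)) := by
    intro π
    rw [finsum_eq_sum_of_fintype, Finset.mul_sum, Finset.sum_mul, φ]
    congr 1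
    ext x
    rw [map_sum, toR_apply, ContinuousMap.sum_apply, Complex.re_sum, ContinuousMap.sum_apply]
    refine Finset.sum_congr rfl fun i _ => ?_
    obtain ⟨b, hb1, hb2⟩ := hb (cell π i)
    rw [show star w * (D.P (cell π i) * (w * star w) * D.P (cell π i)) * w = D.ι (b * b) by
      rw [map_mul, hb1]; simp only [mul_assoc], D.E_ι, ← hb2]
    simp
  have hlim := D.pinch (w * star w) (star w) w
  have hzero : Tendsto (fun π : DiscreteQuotient X =>
      D.φ (star w * (∑ᶠ i : π, D.P (cell π i) * (w * star w) * D.P (cell π i)) * w))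
      atBot (𝓝 0) := by
    refine Metric.tendsto_nhds.2 fun ε hε => ?_
    obtain ⟨π₀, hπ₀⟩ := T.exists_g_near D.mass ⊤
      (div_pos hε (by positivity : (0 : ℝ) < ‖T.K ⊤‖ + 1))
    rw [h0, map_zero, zero_add] at hπ₀
    filter_upwards [eventually_le_atBot π₀] with π hπ
    rw [hsum π, Real.dist_eq, sub_zero,
      abs_of_nonneg (D.ψ_pos _ (Finset.sum_nonneg fun i _ => mul_nonneg (T.nonneg _) (T.nonneg _)))]
    have hle : ∑ i : π, T.K (cell π i) * T.K (cell π i) ≤ ‖T.K ⊤‖ • T.g ⊤ π := by
      refine ContinuousMap.le_def.2 fun x => ?_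
      rw [ContinuousMap.sum_apply, ContinuousMap.smul_apply, smul_eq_mul]
      have hs : ∀ s : Finset π, ∑ i ∈ s, T.K (cell π i) x = T.K (s.sup (cell π)) x := by
        intro s
        induction s using Finset.induction_on with
        | empty =>
          have h1 : T.K (⊥ : Clopens X) = 0 := by simpa using T.add ⊥ ⊥ disjoint_bot_left
          simp [h1]
        | insert a s ha ih =>
          rw [Finset.sum_insert ha, ih, Finset.sup_insert, T.add _ _ (Finset.disjoint_sup_right.2
            fun j hj => cell_disjoint fun e : a = j => ha (e ▸ hj)), ContinuousMap.add_apply]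
      calc ∑ i : π, (T.K (cell π i) * T.K (cell π i)) x
          ≤ ∑ i : π, T.K (cell π i) x * T.g ⊤ π x := by
            refine Finset.sum_le_sum fun i _ => ?_
            rw [ContinuousMap.mul_apply]
            refine mul_le_mul_of_nonneg_left ?_ (ContinuousMap.le_def.1 (T.nonneg _) x)
            have := T.le_g ⊤ i x
            rwa [inf_top_eq] at this
        _ = T.K ⊤ x * T.g ⊤ π x := by rw [← Finset.sum_mul, hs, sup_cells]
        _ ≤ ‖T.K ⊤‖ * T.g ⊤ π x :=
            mul_le_mul_of_nonneg_right ((le_abs_self _).trans ((T.K ⊤).norm_coe_le_norm x))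
              (ContinuousMap.le_def.1 (T.g_nonneg ⊤ π) x)
    have hle' : D.ψ (∑ i : π, T.K (cell π i) * T.K (cell π i)) ≤ D.ψ (‖T.K ⊤‖ • T.g ⊤ π) :=
      D.mass.mono hle
    have hg : D.ψ (T.g ⊤ π) ≤ D.ψ (T.g ⊤ π₀) := D.mass.mono (T.g_mono ⊤ hπ)
    rw [map_smul, smul_eq_mul] at hle'
    calc _ ≤ ‖T.K ⊤‖ * D.ψ (T.g ⊤ π) := hle'
      _ ≤ ‖T.K ⊤‖ * (ε / (‖T.K ⊤‖ + 1)) :=
          mul_le_mul_of_nonneg_left (hg.trans hπ₀.le) (norm_nonneg _)
      _ < ε := by
          rw [mul_div_assoc', div_lt_iff₀ (by positivity)]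
          nlinarith [norm_nonneg (T.K ⊤)]
  have hφ : D.φ (star w * D.ι (D.E (w * star w)) * w) = 0 := tendsto_nhds_unique hlim hzero
  set h : C(X, ℝ) := toR (D.E (w * star w))
  have hh : ∀ x, 0 ≤ h x ∧ D.E (w * star w) x = (h x : ℂ) := fun x => by
    have := Complex.nonneg_iff.1 (D.E_pos (star w) x)
    rw [star_star] at this
    exact ⟨this.1, Complex.ext (by simp [h]) (by simpa using this.2.symm)⟩
  set s : C(X, ℝ) := ⟨fun x => Real.sqrt (h x), by fun_prop⟩
  have hs : ofR s * ofR s = D.E (w * star w) := by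
    ext x
    rw [(hh x).2, ContinuousMap.mul_apply, ofR_apply, ← Complex.ofReal_mul]
    simp [s, Real.mul_self_sqrt (hh x).1]
  have hsw : D.ι (ofR s) * w = 0 := by
    refine D.φ_faithful ?_
    have hst : star (D.ι (ofR s)) = D.ι (ofR s) := by
      rw [← map_star]; congr 1; ext x; simp
    have e : star (D.ι (ofR s) * w) * (D.ι (ofR s) * w) = star w * D.ι (D.E (w * star w)) * w := by
      rw [star_mul, hst, ← hs, map_mul]
      simp only [mul_assoc]
    rw [e, hφ]
  have h2 : D.E (w * star w) * D.E (w * star w) = 0 := by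
    have e1 := D.E_bimod (ofR s) 1 (w * star w)
    rw [map_one, mul_one, mul_one, ← mul_assoc, hsw, zero_mul, map_zero] at e1
    calc D.E (w * star w) * D.E (w * star w)
        = ofR s * (ofR s * D.E (w * star w)) := by rw [← mul_assoc, hs]
      _ = 0 := by rw [← e1, mul_zero]
  have h3 : D.E (star (star w) * star w) = 0 := by
    rw [star_star]
    ext x
    exact mul_self_eq_zero.1 (by simpa using ContinuousMap.congr_fun h2 x)
  exact star_eq_zero.1 (D.E_faithful _ h3)

/-- An intertwiner with positive coefficient gives a normaliser in `A w`. -/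
theorem exists_norm_of_intertwiner {z w : M} (c : PosMap.Cut (D.posMap z))
    (hw : ∀ f, D.P (c.β f) * w = w * D.P f) (hwE : c.m • ind c.p ≤ toR (D.E (z * star w))) :
    ∃ b : C(X, ℂ), D.IsNorm (D.ι b * w) ∧ D.E (z * star (D.ι b * w)) ≠ 0 := by
  classical
  have hp : ∃ x, x ∈ c.p := by
    by_contra hno
    push Not at hno
    exact c.p_ne (le_bot_iff.1 fun x hx => absurd hx (hno x))
  have hw0 : w ≠ 0 := by
    rintro rfl
    obtain ⟨x, hx⟩ := hp
    have := ContinuousMap.le_def.1 hwE x
    simp [ind_of_mem hx] at this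
    linarith [c.m_pos]
  obtain ⟨c'⟩ := (D.posMap (star w)).exists_cut D.mass (D.second_atom_ne_zero hw hw0)
  obtain ⟨w', hw', -, hw'E, F, hF, hlim⟩ := D.exists_intertwiner c'
  have hw'0 : w' ≠ 0 := by
    rintro rfl
    have hp' : ∃ x, x ∈ c'.p := by
      by_contra hno
      push Not at hno
      exact c'.p_ne (le_bot_iff.1 fun x hx => absurd hx (hno x))
    obtain ⟨x, hx⟩ := hp'
    have := ContinuousMap.le_def.1 hw'E x
    simp [ind_of_mem hx] at this
    linarith [c'.m_pos]
  set t : (π : DiscreteQuotient X) → π → Clopens X := fun π i =>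
    cell π i ⊓ c'.e ⊓ c.β (c'.β (cell π i))
  have htd : ∀ π, ∀ i j, i ≠ j → Disjoint (t π i) (t π j) := fun π i j hij =>
    (cell_disjoint hij).mono (inf_le_left.trans inf_le_left) (inf_le_left.trans inf_le_left)
  set r : DiscreteQuotient X → Clopens X := fun π => Finset.univ.sup (t π)
  have hr : Monotone r := fun π' π h => Finset.sup_le fun i _ =>
    (inf_le_inf (inf_le_inf_right _ (cell_le_cell h i))
      (D.β_mono c (D.β_mono c' (cell_le_cell h i)))).trans
      (Finset.le_sup (f := t π) (Finset.mem_univ (DiscreteQuotient.ofLE h i)))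
  have hstar : ∀ π, star (D.approx c' π) = D.P (r π) * w := by
    intro π
    rw [approx, star_sum, ← D.sum_P _ _ (htd π), Finset.sum_mul]
    refine Finset.sum_congr rfl fun i _ => ?_
    rw [star_mul, star_mul, D.star_P, D.star_P, star_star, ← hw, ← mul_assoc, D.P_mul]
  have hg : Monotone fun π => ind (r π) := fun π' π h => ContinuousMap.le_def.2 fun x => by
    by_cases hx : x ∈ r π'
    · rw [ind_of_mem hx, ind_of_mem (hr h hx)]
    · rw [ind_of_not_mem hx]
      exact ContinuousMap.le_def.1 (ind_nonneg _) x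
  obtain ⟨m₀, -, hm₀⟩ := D.monoLim _ hg (fun π => ind_nonneg _)
  set v := star w'
  have hv : v = D.ι (ofR m₀) * w := by
    refine D.eq_of_test fun u q => ?_
    have h1 := hlim (star q) (star u)
    have e : ∀ a : M, D.φ (star q * a * star u) = D.φ (u * star a * q) := fun a => by
      rw [← D.φ_star, star_mul, star_mul, star_star, star_star, mul_assoc]
    simp only [e, hstar] at h1
    have h2 := (hm₀ u (w * q)).mono_left hF
    have e2 : (fun π => D.φ (u * (D.P (r π) * w) * q)) =
        fun π => D.φ (u * D.P (r π) * (w * q)) := by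
      funext π; simp only [mul_assoc]
    rw [e2] at h1
    have := tendsto_nhds_unique h1 h2
    rw [this, φ]
    simp only [mul_assoc]
  have hm : star (D.ι (ofR m₀)) = D.ι (ofR m₀) := by
    rw [← map_star]; congr 1; ext x; simp
  refine ⟨ofR m₀, ?_⟩
  rw [← hv]
  refine ⟨⟨fun a => ?_, fun a => ?_⟩, ?_⟩
  · obtain ⟨b, hb⟩ := D.intertwiner_mem hw' a
    exact ⟨b, by rw [hb, star_star]⟩
  · obtain ⟨b, hb⟩ := D.intertwiner_mem hw (ofR m₀ * a * ofR m₀)
    refine ⟨b, ?_⟩
    rw [hb, hv, star_mul, hm, map_mul, map_mul]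
    simp only [mul_assoc]
  · intro h0
    have hE := D.E_bimod 1 (ofR m₀) (z * star w)
    rw [map_one, one_mul, one_mul] at hE
    rw [hv, star_mul, hm, ← mul_assoc, hE] at h0
    have hP : D.ι (ofR m₀) * D.P c.p = 0 := by
      rw [P, ← map_mul]
      have : ofR m₀ * ofR (ind c.p) = 0 := by
        ext x
        by_cases hx : x ∈ c.p
        · have h1 := ContinuousMap.le_def.1 hwE x
          rw [ContinuousMap.smul_apply, ind_of_mem hx, smul_eq_mul, mul_one] at h1
          have h2 := congrArg Complex.re (ContinuousMap.congr_fun h0 x)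
          rw [ContinuousMap.mul_apply, ofR_apply] at h2
          simp at h2
          have hpos : 0 < (D.E (z * star w) x).re := lt_of_lt_of_le c.m_pos h1
          rcases h2 with h2 | h2
          · linarith
          · simp [h2]
        · simp [ind_of_not_mem hx]
      rw [this, map_zero]
    have hpw : D.P c.p * w = w := by
      have := hw ⊤
      rwa [c.β_top, D.P_top, mul_one] at this
    apply hw'0
    rw [← star_eq_zero]
    show v = 0
    rw [hv, ← hpw, ← mul_assoc, hP, zero_mul]

/-- Existence of a normaliser. -/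
theorem exists_norm {z : M} (hz : (D.posMap z).atom D.mass ⊤ ≠ 0) :
    ∃ v, D.IsNorm v ∧ D.E (z * star v) ≠ 0 := by
  obtain ⟨c⟩ := (D.posMap z).exists_cut D.mass hz
  obtain ⟨w, hw, -, hwE, -⟩ := D.exists_intertwiner c
  obtain ⟨b, hb, hbE⟩ := D.exists_norm_of_intertwiner c hw hwE
  exact ⟨_, hb, hbE⟩

end Data

end Vale.Agent.P078.AllMasa.Family
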