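import Vale.Agent.P078.AllMasa.Family.Data

/-! A cut gives an element intertwining the Boolean homomorphism. -/

namespace Vale.Agent.P078.AllMasa.Family

open TopologicalSpace Filter Topology ComplexOrder

set_option linter.unusedSectionVars false

variable {M X : Type*} [CStarAlgebra M] [PartialOrder M] [StarOrderedRing M]
variable [TopologicalSpace X] [CompactSpace X]

/-- Orthogonal blocks of one element do not increase the norm. -/
theorem norm_blocks_le {ι : Type*} [Fintype ι] (P Q : ι → M) (z : M)
    (hP : ∀ i, star (P i) = P i) (hPP : ∀ i, P i * P i = P i)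
    (hPo : ∀ i j, i ≠ j → P i * P j = 0) (hQ : ∀ i, star (Q i) = Q i)
    (hQQ : ∀ i, Q i * Q i = Q i) (hQ1 : ∑ i, Q i ≤ 1) :
    ‖∑ i, P i * z * Q i‖ ≤ ‖z‖ := by
  classical
  have e : star (∑ i, P i * z * Q i) * (∑ i, P i * z * Q i) =
      ∑ i, star (Q i) * (star z * P i * z) * Q i := by
    rw [star_sum, Finset.sum_mul]
    refine Finset.sum_congr rfl fun i _ => ?_
    rw [Finset.mul_sum, Finset.sum_eq_single i]
    · simp only [star_mul, hP, mul_assoc]
      rw [← mul_assoc (P i), hPP]
    · intro j _ hj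
      simp only [star_mul, hP, mul_assoc]
      rw [← mul_assoc (P i), hPo i j (Ne.symm hj)]
      simp
    · simp
  have hPle : ∀ i, P i ≤ 1 := fun i => by
    have := star_mul_self_nonneg (1 - P i)
    rw [star_sub, star_one, hP, sub_mul, one_mul, mul_sub, mul_one, hPP, sub_self, sub_zero] at this
    exact sub_nonneg.1 this
  have hle : ∑ i, star (Q i) * (star z * P i * z) * Q i ≤ (‖z‖ ^ 2) • (1 : M) := by
    have h1 : ∀ i, star (Q i) * (star z * P i * z) * Q i ≤ (‖z‖ ^ 2) • Q i := fun i => by
      have h2 : star z * P i * z ≤ (‖z‖ ^ 2) • (1 : M) := by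
        refine (star_left_conjugate_le_conjugate (hPle i) z).trans ?_
        rw [mul_one, ← Algebra.algebraMap_eq_smul_one, pow_two, ← CStarRing.norm_star_mul_self]
        exact IsSelfAdjoint.le_algebraMap_norm_self (IsSelfAdjoint.star_mul_self z)
      refine (star_left_conjugate_le_conjugate h2 (Q i)).trans (le_of_eq ?_)
      rw [mul_smul_comm, mul_one, smul_mul_assoc, hQ, hQQ]
    refine (Finset.sum_le_sum fun i _ => h1 i).trans ?_
    rw [← Finset.smul_sum]
    exact smul_le_smul_of_nonneg_left hQ1 (sq_nonneg _)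
  have hn : ‖∑ i, star (Q i) * (star z * P i * z) * Q i‖ ≤ ‖z‖ ^ 2 := by
    rcases subsingleton_or_nontrivial M with hM | hM
    · rw [Subsingleton.elim (∑ i, star (Q i) * (star z * P i * z) * Q i) 0, norm_zero]
      positivity
    refine (CStarAlgebra.norm_le_norm_of_nonneg_of_le (e ▸ star_mul_self_nonneg _) hle).trans ?_
    rw [norm_smul, norm_one, mul_one, Real.norm_of_nonneg (sq_nonneg _)]
  rw [← e, CStarRing.norm_star_mul_self, ← sq] at hn
  exact (sq_le_sq₀ (norm_nonneg _) (norm_nonneg _)).1 hn

namespace Data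

variable (D : Data M X) [T2Space X] [TotallyDisconnectedSpace X]

theorem φ_star (a : M) : D.φ (star a) = D.φ a := by
  have : toR (D.E (star a)) = toR (D.E a) := by ext x; simp [D.E_star]
  rw [φ, φ, this]

theorem P_le_one (f : Clopens X) : D.P f ≤ 1 := by
  rw [← D.P_top, show (⊤ : Clopens X) = f ⊔ fᶜ from (sup_compl_eq_top).symm,
    D.P_sup disjoint_compl_right]
  refine le_add_of_nonneg_right ?_
  have := star_mul_self_nonneg (D.P fᶜ)
  rwa [D.star_P, D.P_idem] at this

theorem sum_P {ι : Type*} (s : Finset ι) (f : ι → Clopens X)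
    (hd : ∀ i j, i ≠ j → Disjoint (f i) (f j)) :
    ∑ i ∈ s, D.P (f i) = D.P (s.sup f) := by
  classical
  induction s using Finset.induction_on with
  | empty => simp [D.P_bot]
  | insert a s ha ih =>
    rw [Finset.sum_insert ha, ih, Finset.sup_insert, D.P_sup (Finset.disjoint_sup_right.2
      fun j hj => hd a j fun e : a = j => ha (e ▸ hj))]

theorem sup_cells {π : DiscreteQuotient X} [Fintype π] :
    Finset.univ.sup (cell π) = ⊤ :=
  top_le_iff.1 fun y _ =>
    (Finset.le_sup (f := cell π) (Finset.mem_univ (π.proj y))) (mem_cell.2 rfl)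

noncomputable local instance instFintypeCells (π : DiscreteQuotient X) : Fintype π :=
  Fintype.ofFinite _

variable {z : M} (c : PosMap.Cut (D.posMap z))

theorem β_inf_e (f : Clopens X) : c.β (f ⊓ c.e) = c.β f := by
  rw [c.β_inf, c.β_e]
  exact inf_eq_left.2 (c.β_le f)

theorem β_disjoint {f g : Clopens X} (h : Disjoint f g) : Disjoint (c.β f) (c.β g) := by
  rw [disjoint_iff, ← c.β_inf, h.eq_bot, c.β_bot]

theorem β_mono {f g : Clopens X} (h : f ≤ g) : c.β f ≤ c.β g := by
  rw [← sup_eq_right, ← c.β_sup, sup_eq_right.2 h]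

/-- The approximating block sum. -/
noncomputable def approx (π : DiscreteQuotient X) : M :=
  ∑ i : π, D.P (c.β (cell π i)) * z * D.P (cell π i ⊓ c.e)

theorem norm_approx_le (π : DiscreteQuotient X) : ‖D.approx c π‖ ≤ ‖z‖ := by
  classical
  refine norm_blocks_le _ _ z (fun i => D.star_P _) (fun i => D.P_idem _) (fun i j h => ?_)
    (fun i => D.star_P _) (fun i => D.P_idem _) ?_
  · rw [D.P_mul, (D.β_disjoint c (cell_disjoint h)).eq_bot, D.P_bot]
  · rw [D.sum_P _ _ fun i j h => (cell_disjoint h).mono inf_le_left inf_le_left]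
    exact D.P_le_one _

theorem approx_comm {π : DiscreteQuotient X} {f : Clopens X}
    (h : π ≤ DiscreteQuotient.ofIsClopen f.isClopen) :
    D.P (c.β f) * D.approx c π = D.approx c π * D.P f := by
  rw [approx, Finset.mul_sum, Finset.sum_mul]
  refine Finset.sum_congr rfl fun i _ => ?_
  rw [mul_assoc _ _ (D.P f), D.P_mul, ← mul_assoc (D.P (c.β f)), ← mul_assoc, D.P_mul]
  rcases cell_inside h i with hi | hi
  · rw [inf_eq_right.2 (D.β_mono c hi), inf_eq_left.2 (inf_le_left.trans hi)]
  · have h1 : c.β f ⊓ c.β (cell π i) = ⊥ :=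
      (D.β_disjoint c (disjoint_compl_right.mono_right hi)).eq_bot
    have h2 : cell π i ⊓ c.e ⊓ f = ⊥ :=
      (disjoint_compl_left.mono_left (inf_le_left.trans hi)).eq_bot
    rw [h1, h2, D.P_bot, zero_mul, zero_mul, mul_zero]

theorem approx_e (π : DiscreteQuotient X) : D.approx c π * D.P c.e = D.approx c π := by
  rw [approx, Finset.sum_mul]
  refine Finset.sum_congr rfl fun i _ => ?_
  rw [mul_assoc _ _ (D.P c.e), D.P_mul, inf_assoc, inf_idem]

theorem le_E_approx (π : DiscreteQuotient X) :
    c.m • ind c.p ≤ toR (D.E (z * star (D.approx c π))) := by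
  classical
  have e : toR (D.E (z * star (D.approx c π))) =
      ∑ i : π, toR (D.E (z * D.P (cell π i ⊓ c.e) * star z)) * ind (c.β (cell π i)) := by
    ext x
    rw [ContinuousMap.sum_apply, approx, star_sum, Finset.mul_sum, map_sum, toR_apply,
      ContinuousMap.sum_apply, Complex.re_sum]
    refine Finset.sum_congr rfl fun i _ => ?_
    have h := D.E_bimod 1 (ofR (ind (c.β (cell π i)))) (z * D.P (cell π i ⊓ c.e) * star z)
    rw [map_one, one_mul, one_mul] at h
    rw [show z * star (D.P (c.β (cell π i)) * z * D.P (cell π i ⊓ c.e)) =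
        z * D.P (cell π i ⊓ c.e) * star z * D.ι (ofR (ind (c.β (cell π i)))) by
      rw [star_mul, star_mul, D.star_P, D.star_P]; simp only [mul_assoc, P], h]
    simp
  rw [e]
  refine ContinuousMap.le_def.2 fun x => ?_
  rw [ContinuousMap.sum_apply]
  have nn : ∀ i : π, 0 ≤
      (toR (D.E (z * D.P (cell π i ⊓ c.e) * star z)) * ind (c.β (cell π i))) x := fun i =>
    mul_nonneg (ContinuousMap.le_def.1 ((D.posMap z).nonneg _) x)
      (ContinuousMap.le_def.1 (ind_nonneg _) x)
  by_cases hx : x ∈ c.p
  · obtain ⟨i, hi⟩ : ∃ i : π, x ∈ c.β (cell π i) := by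
      by_contra hno
      push Not at hno
      have : ∀ s : Finset π, x ∉ c.β (s.sup (cell π)) := by
        intro s
        induction s using Finset.induction_on with
        | empty => rw [Finset.sup_empty, c.β_bot]; exact id
        | insert a s ha ih =>
          rw [Finset.sup_insert, c.β_sup]
          exact fun h' => Or.elim (h' : x ∈ c.β (cell π a) ∨ x ∈ c.β (s.sup (cell π))) (hno a) ih
      apply this Finset.univ
      rw [sup_cells, c.β_top]
      exact hx
    refine le_trans ?_ (Finset.single_le_sum (fun j _ => nn j) (Finset.mem_univ i))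
    rw [ContinuousMap.smul_apply, ind_of_mem hx, smul_eq_mul, mul_one, ContinuousMap.mul_apply,
      ind_of_mem hi, mul_one]
    exact c.le_K _ x (by rwa [D.β_inf_e c])
  · rw [ContinuousMap.smul_apply, ind_of_not_mem hx, smul_zero]
    exact Finset.sum_nonneg fun j _ => nn j

/-- The intertwiner of a cut. -/
theorem exists_intertwiner :
    ∃ w : M, (∀ f, D.P (c.β f) * w = w * D.P f) ∧ w * D.P c.e = w ∧
      c.m • ind c.p ≤ toR (D.E (z * star w)) ∧
      ∃ F : Ultrafilter (DiscreteQuotient X), (F : Filter (DiscreteQuotient X)) ≤ atBot ∧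
        ∀ u v, Tendsto (fun π => D.φ (u * D.approx c π * v)) F (𝓝 (D.φ (u * w * v))) := by
  let F : Ultrafilter (DiscreteQuotient X) := Ultrafilter.of atBot
  have hF : (F : Filter (DiscreteQuotient X)) ≤ atBot := Ultrafilter.of_le _
  obtain ⟨w, hw⟩ := D.compact F (D.approx c) ‖z‖ (D.norm_approx_le c)
  have hw' : ∀ u v, Tendsto (fun π => D.φ (u * D.approx c π * v)) F (𝓝 (D.φ (u * w * v))) := hw
  refine ⟨w, fun f => D.eq_of_test fun u v => ?_, D.eq_of_test fun u v => ?_, ?_, F, hF, hw'⟩
  · have h1 := hw' (u * D.P (c.β f)) v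
    have h2 := hw' u (D.P f * v)
    have hev : (fun π => D.φ (u * D.P (c.β f) * D.approx c π * v)) =ᶠ[(F : Filter _)]
        fun π => D.φ (u * D.approx c π * (D.P f * v)) := by
      filter_upwards [hF (eventually_le_atBot (DiscreteQuotient.ofIsClopen f.isClopen))] with π hπ
      simp only [mul_assoc]
      rw [← mul_assoc (D.P (c.β f)), D.approx_comm c hπ, mul_assoc]
    have := tendsto_nhds_unique (h1.congr' hev) h2
    simpa only [mul_assoc] using this
  · have h2 := hw' u (D.P c.e * v)
    have e : (fun π => D.φ (u * D.approx c π * (D.P c.e * v))) =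
        fun π => D.φ (u * D.approx c π * v) := by
      funext π
      rw [← mul_assoc, mul_assoc u, D.approx_e c]
    rw [e] at h2
    have := tendsto_nhds_unique h2 (hw' u v)
    simpa only [mul_assoc] using this
  · set R := toR (D.E (z * star w))
    have key : ∀ g : C(X, ℝ), 0 ≤ g → c.m * D.ψ (g * ind c.p) ≤ D.ψ (g * R) := by
      intro g hg
      have hlim := hw' 1 (star (D.ι (ofR g) * z))
      have e : ∀ a : M, D.φ (1 * a * star (D.ι (ofR g) * z)) = D.ψ (g * toR (D.E (z * star a))) := by
        intro a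
        rw [← D.φ_star, star_mul, star_star, one_mul, mul_assoc, φ]
        congr 1
        have h := D.E_bimod (ofR g) 1 (z * star a)
        rw [map_one, mul_one, mul_one] at h
        ext x
        simp [h]
      simp only [e] at hlim
      refine ge_of_tendsto hlim (Eventually.of_forall fun π => ?_)
      rw [← smul_eq_mul, ← map_smul, ← mul_smul_comm]
      exact D.mass.mono (mul_le_mul_of_nonneg_left (D.le_E_approx c π) hg)
    set g := (c.m • ind c.p - R) ⊔ 0 with hgdef
    have hg : 0 ≤ g := le_sup_right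
    have h3 := key g hg
    have h4 : g * g = g * (c.m • ind c.p - R) := by
      ext x
      simp only [g, ContinuousMap.mul_apply, ContinuousMap.sup_apply, ContinuousMap.zero_apply]
      rcases le_total ((c.m • ind c.p - R) x) 0 with h | h
      · rw [sup_eq_right.2 h, zero_mul, zero_mul]
      · rw [sup_eq_left.2 h]
    have h5 : g * g = 0 := by
      refine D.ψ_faithful _ (mul_nonneg hg hg) (le_antisymm ?_ (D.ψ_pos _ (mul_nonneg hg hg)))
      rw [h4, mul_sub, map_sub, mul_smul_comm, map_smul, smul_eq_mul]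
      linarith
    refine ContinuousMap.le_def.2 fun x => ?_
    have h6 : g x = 0 := mul_self_eq_zero.1 (by simpa using ContinuousMap.congr_fun h5 x)
    have h7 : (c.m • ind c.p - R) x ≤ g x :=
      ContinuousMap.le_def.1 (le_sup_left (a := c.m • ind c.p - R) (b := 0)) x
    rw [h6, ContinuousMap.sub_apply] at h7
    linarith

theorem intertwiner_mem {f : Clopens X → Clopens X} {w : M}
    (h : ∀ g, D.P (f g) * w = w * D.P g) (a : C(X, ℂ)) : ∃ b, D.ι b = star w * D.ι a * w := by
  refine D.mem_of_P fun g => ?_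
  have h' : star w * D.P (f g) = D.P g * star w := by
    have := congrArg star (h g)
    rwa [star_mul, star_mul, D.star_P, D.star_P] at this
  have hc : D.P (f g) * D.ι a = D.ι a * D.P (f g) := by rw [P, ← map_mul, ← map_mul, mul_comm]
  rw [← mul_assoc, ← mul_assoc, ← h', mul_assoc _ _ (D.ι a), hc, ← mul_assoc, mul_assoc _ _ w,
    h g, ← mul_assoc]

theorem intertwiner_sq_mem {f : Clopens X → Clopens X} {w : M}
    (h : ∀ g, D.P (f g) * w = w * D.P g) : ∃ b, D.ι b = star w * w := by
  obtain ⟨b, hb⟩ := D.intertwiner_mem h 1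
  exact ⟨b, by rw [hb, map_one, mul_one]⟩

end Data

end Vale.Agent.P078.AllMasa.Family
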