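import Vale.Agent.P078.AllMasa.Family.Tail

/-! Transposition: adjoints of families, and the symmetry of the coefficients. -/

namespace Vale.Agent.P078.AllMasa.Family

open TopologicalSpace Filter Topology ComplexOrder

set_option linter.unusedSectionVars false

variable {M X : Type*} [CStarAlgebra M] [PartialOrder M] [StarOrderedRing M]
variable [TopologicalSpace X] [CompactSpace X] [T2Space X] [TotallyDisconnectedSpace X]

namespace Data

variable {D : Data M X}

theorem IsPN.star_pn {u : M} (h : D.IsPN u) : D.IsPN (star u) where
  conj a := by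
    obtain ⟨b, hb⟩ := h.conj' a
    exact ⟨b, by rw [hb, star_star]⟩
  conj' a := by
    obtain ⟨b, hb⟩ := h.conj a
    exact ⟨b, by rw [hb, star_star]⟩
  pi := by
    have := congrArg star h.pi
    simpa [star_mul, mul_assoc] using this

/-- Expectations of products with a normaliser on the other side. -/
theorem IsPN.E_star_mul {u : M} (h : D.IsPN u) (a : M) :
    D.E (star u * a) = D.conjFn (star u) (D.E (a * star u)) := by
  obtain ⟨b', hb'⟩ := h.sq_mem'
  have h1 := h.star_pn.E_conj (a * star u)
  rw [star_star] at h1
  have h3 : star u * u * star u = star u := by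
    have := congrArg star h.pi
    simpa [star_mul, mul_assoc] using this
  rw [conjFn, star_star, ← h1, D.E_ι]
  calc D.E (star u * a) = D.E (D.ι b' * (star u * a)) := by rw [hb', ← mul_assoc, h3]
    _ = D.E ((star u * a) * D.ι b') := by rw [D.E_left, D.E_right, mul_comm]
    _ = _ := by rw [hb']; simp only [mul_assoc]

/-- The adjoint of a family is a family. -/
theorem IsFamily.star_family [DecidableEq M] {F : Finset M} (hF : D.IsFamily F) :
    D.IsFamily (F.image star) where
  pn u hu := by
    obtain ⟨v, hv, rfl⟩ := Finset.mem_image.1 hu
    exact (hF.pn v hv).star_pn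
  orth u hu u' hu' hne := by
    obtain ⟨v, hv, rfl⟩ := Finset.mem_image.1 hu
    obtain ⟨v', hv', rfl⟩ := Finset.mem_image.1 hu'
    rw [star_star, (hF.pn v hv).E_star_mul,
      hF.orth v' hv' v hv fun e => hne (by rw [e]), conjFn]
    simp

/-- The coefficient of the adjoint, transported along the normaliser. -/
theorem IsPN.coeff_symm {u z : M} (h : D.IsPN u) (hz : IsSelfAdjoint z) :
    star (D.coeff z (star u)) = D.conjFn (star u) (D.coeff z u) := by
  rw [coeff, coeff, star_star, ← D.E_star, star_mul, hz.star_eq, h.E_star_mul]

end Data

end Vale.Agent.P078.AllMasa.Family
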