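import Vale.Agent.P078.AllMasa.Family.Bessel

/-! A maximal family of orthogonal normalisers carries the whole atomic part. -/

namespace Vale.Agent.P078.AllMasa.Family

open TopologicalSpace Filter Topology ComplexOrder

set_option linter.unusedSectionVars false

variable {M X : Type*} [CStarAlgebra M] [PartialOrder M] [StarOrderedRing M]
variable [TopologicalSpace X] [CompactSpace X] [T2Space X] [TotallyDisconnectedSpace X]

namespace Data

variable (D : Data M X)

noncomputable local instance instFintypeCellsT (π : DiscreteQuotient X) : Fintype π :=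
  Fintype.ofFinite _

theorem eq_zero_of_test {d : C(X, ℂ)} (h : ∀ g, D.ψ (toR (g * d)) = 0) : d = 0 := by
  have hnn : ∀ x, 0 ≤ toR (star d * d) x := fun x => by
    simp [Complex.mul_re]
    nlinarith [sq_nonneg (d x).re, sq_nonneg (d x).im]
  have h3 := D.ψ_faithful _ (ContinuousMap.le_def.2 hnn) (h (star d))
  ext x
  have h4 := ContinuousMap.congr_fun h3 x
  simp [Complex.mul_re] at h4
  apply Complex.ext
  · simp only [ContinuousMap.zero_apply, Complex.zero_re]
    nlinarith [sq_nonneg (d x).re, sq_nonneg (d x).im]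
  · simp only [ContinuousMap.zero_apply, Complex.zero_im]
    nlinarith [sq_nonneg (d x).re, sq_nonneg (d x).im]

/-- Normalisation to a partial isometry. -/
theorem exists_pn {z v : M} (hv : D.IsNorm v) (hE : D.E (z * star v) ≠ 0) :
    ∃ d : C(X, ℂ), D.IsPN (D.ι d * v) ∧ D.E (z * star (D.ι d * v)) ≠ 0 := by
  set h := D.E (z * star v)
  obtain ⟨c, hc⟩ := hv.conj 1
  rw [map_one, mul_one] at hc
  set c0 : C(X, ℝ) := toR c
  have hcE : c = D.E (v * star v) := by rw [← hc, D.E_ι]
  have hc0 : ∀ x, 0 ≤ c0 x ∧ c x = (c0 x : ℂ) := fun x => by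
    have := Complex.nonneg_iff.1 (D.E_pos (star v) x)
    rw [star_star, ← hcE] at this
    exact ⟨this.1, Complex.ext (by simp [c0]) (by simpa using this.2.symm)⟩
  obtain ⟨x, hx1, hx2⟩ : ∃ x, 0 < c0 x ∧ h x ≠ 0 := by
    by_contra hno
    push Not at hno
    apply hE
    have hz : c * h = 0 := by
      ext x
      rcases (hc0 x).1.lt_or_eq with h1 | h1
      · rw [ContinuousMap.mul_apply, hno x h1, mul_zero, ContinuousMap.zero_apply]
      · rw [ContinuousMap.mul_apply, (hc0 x).2, ← h1, Complex.ofReal_zero, zero_mul,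
          ContinuousMap.zero_apply]
    have hh : star (D.ι (star h)) = D.ι h := by rw [← map_star D.ι, star_star]
    have h0 : D.ι (star h) * v = 0 := by
      apply star_eq_zero.1
      apply D.φ_faithful
      rw [star_star, star_mul, hh, φ]
      rw [show D.ι (star h) * v * (star v * D.ι h) = D.ι (star h) * (v * star v) * D.ι h by
        simp only [mul_assoc], ← hc, ← map_mul, ← map_mul, D.E_ι, mul_assoc, hz, mul_zero]
      have : toR (0 : C(X, ℂ)) = 0 := by ext x; simp
      rw [this, map_zero]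
    have h1 : D.E (z * star (D.ι (star h) * v)) = 0 := by rw [h0, star_zero, mul_zero, map_zero]
    rw [star_mul, hh, ← mul_assoc, D.E_right] at h1
    ext y
    have h2 := ContinuousMap.congr_fun h1 y
    rw [ContinuousMap.mul_apply, ContinuousMap.zero_apply] at h2
    exact mul_self_eq_zero.1 h2
  set δ := Real.sqrt (c0 x) / 2
  have hδ : 0 < δ := half_pos (Real.sqrt_pos.2 hx1)
  have hopen : IsOpen ({y | δ < Real.sqrt (c0 y)} ∩ {y | h y ≠ 0}) :=
    (isOpen_lt continuous_const (by fun_prop)).inter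
      (isOpen_ne_fun h.continuous continuous_const)
  obtain ⟨Q, hQ, hxQ, hQs⟩ := compact_exists_isClopen_in_isOpen hopen
    (x := x) ⟨show δ < Real.sqrt (c0 x) by simp only [δ]; linarith [Real.sqrt_pos.2 hx1], hx2⟩
  set q : Clopens X := ⟨Q, hQ⟩
  have hcont : Continuous fun y => ind q y / max (Real.sqrt (c0 y)) δ :=
    (ind q).continuous.div (by fun_prop) fun y => (lt_max_of_lt_right hδ).ne'
  set d0 : C(X, ℝ) := ⟨_, hcont⟩
  have hd : ∀ y, d0 y = ind q y / max (Real.sqrt (c0 y)) δ := fun y => rfl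
  have hkey : ofR d0 * c * ofR d0 = ofR (ind q) := by
    ext y
    rw [ContinuousMap.mul_apply, ContinuousMap.mul_apply, (hc0 y).2, ofR_apply, ofR_apply,
      ← Complex.ofReal_mul, ← Complex.ofReal_mul, hd]
    by_cases hy : y ∈ q
    · have h1 : δ < Real.sqrt (c0 y) := (hQs hy).1
      rw [ind_of_mem hy, max_eq_left h1.le, Complex.ofReal_inj]
      have h2 : Real.sqrt (c0 y) ≠ 0 := (hδ.trans h1).ne'
      field_simp
      rw [Real.sq_sqrt (hc0 y).1]
    · simp [ind_of_not_mem hy]
  have hqd : ofR (ind q) * ofR d0 = ofR d0 := by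
    ext y
    rw [ContinuousMap.mul_apply, ofR_apply, ofR_apply, ← Complex.ofReal_mul, hd]
    by_cases hy : y ∈ q
    · simp [ind_of_mem hy]
    · simp [ind_of_not_mem hy]
  have hst : star (D.ι (ofR d0)) = D.ι (ofR d0) := by rw [← map_star]; congr 1; ext y; simp
  refine ⟨ofR d0, ⟨⟨fun a => ?_, fun a => ?_⟩, ?_⟩, ?_⟩
  · obtain ⟨b, hb⟩ := hv.conj a
    exact ⟨ofR d0 * b * ofR d0, by rw [map_mul, map_mul, hb, star_mul, hst]; simp only [mul_assoc]⟩
  · obtain ⟨b, hb⟩ := hv.conj' (ofR d0 * a * ofR d0)
    exact ⟨b, by rw [hb, star_mul, hst, map_mul, map_mul]; simp only [mul_assoc]⟩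
  · rw [star_mul, hst]
    calc D.ι (ofR d0) * v * (star v * D.ι (ofR d0)) * (D.ι (ofR d0) * v)
        = (D.ι (ofR d0) * (v * star v) * D.ι (ofR d0)) * D.ι (ofR d0) * v := by
          simp only [mul_assoc]
      _ = D.ι (ofR d0) * v := by rw [← hc, ← map_mul, ← map_mul, hkey, ← map_mul, hqd]
  · intro h0
    rw [star_mul, hst, ← mul_assoc, D.E_right] at h0
    have h1 := ContinuousMap.congr_fun h0 x
    rw [ContinuousMap.mul_apply, ofR_apply, hd, ind_of_mem (show x ∈ q from hxQ)] at h1
    simp only [ContinuousMap.zero_apply, mul_eq_zero, Complex.ofReal_eq_zero] at h1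
    rcases h1 with h1 | h1
    · exact hx2 h1
    · exact (div_pos one_pos (lt_max_of_lt_right hδ)).ne' h1

theorem rest_empty (z : M) : D.rest z ∅ = z := by simp [rest]

theorem K_eq_of_family {z : M} {F : Finset M} (hF : D.IsFamily F) (f : Clopens X) :
    (D.posMap z).K f = (∑ u ∈ F, toR (D.coeff z u * star (D.coeff z u) *
      D.conjFn u (ofR (ind f)))) + (D.posMap (D.rest z F)).K f := by
  ext x
  have := congrArg Complex.re (ContinuousMap.congr_fun (bessel (z := z) hF (ofR (ind f))) x)
  rw [ContinuousMap.add_apply, ContinuousMap.sum_apply, Complex.add_re, Complex.re_sum] at this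
  rw [ContinuousMap.add_apply, ContinuousMap.sum_apply]
  exact this

theorem conjFn_ind_nonneg (u : M) (f : Clopens X) (x : X) :
    0 ≤ D.conjFn u (ofR (ind f)) x := by
  have e : u * D.ι (ofR (ind f)) * star u = star (D.P f * star u) * (D.P f * star u) := by
    rw [star_mul, star_star, D.star_P, mul_assoc u (D.P f) (D.P f * star u), ← mul_assoc (D.P f),
      D.P_idem, mul_assoc]
    rfl
  rw [conjFn, e]
  exact D.E_pos _ x

theorem term_nonneg (z u : M) (f : Clopens X) :
    0 ≤ toR (D.coeff z u * star (D.coeff z u) * D.conjFn u (ofR (ind f))) := by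
  refine ContinuousMap.le_def.2 fun x => ?_
  obtain ⟨hr, hi⟩ := Complex.nonneg_iff.1 (D.conjFn_ind_nonneg u f x)
  simp [Complex.mul_re, Complex.mul_im, ← hi]
  exact mul_nonneg (by nlinarith [sq_nonneg (D.coeff z u x).re, sq_nonneg (D.coeff z u x).im]) hr

theorem K_rest_antitone {z : M} {F G : Finset M} (hG : D.IsFamily G) (h : F ⊆ G)
    (f : Clopens X) : (D.posMap (D.rest z G)).K f ≤ (D.posMap (D.rest z F)).K f := by
  classical
  have hF : D.IsFamily F :=
    ⟨fun u hu => hG.pn u (h hu), fun u hu v hv => hG.orth u (h hu) v (h hv)⟩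
  have e1 := D.K_eq_of_family (z := z) hF f
  have e2 := D.K_eq_of_family (z := z) hG f
  rw [← Finset.sum_sdiff h] at e2
  refine ContinuousMap.le_def.2 fun x => ?_
  have h1 := ContinuousMap.congr_fun (e1.symm.trans e2) x
  have h2 := ContinuousMap.le_def.1
    (Finset.sum_nonneg fun u (_ : u ∈ G \ F) => D.term_nonneg z u f) x
  simp only [ContinuousMap.add_apply, ContinuousMap.zero_apply] at h1 h2
  linarith

/-- A set of pairwise orthogonal normalising partial isometries with nonzero coefficients. -/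
structure IsFamilySet (z : M) (S : Set M) : Prop where
  pn : ∀ u ∈ S, D.IsPN u
  ne : ∀ u ∈ S, D.coeff z u ≠ 0
  orth : ∀ u ∈ S, ∀ v ∈ S, u ≠ v → D.E (u * star v) = 0

variable {D}

theorem IsFamilySet.family {z : M} {S : Set M} (h : D.IsFamilySet z S) {F : Finset M}
    (hF : (F : Set M) ⊆ S) : D.IsFamily F :=
  ⟨fun u hu => h.pn u (hF hu), fun u hu v hv => h.orth u (hF hu) v (hF hv)⟩

variable (D)

theorem exists_maximal (z : M) :
    ∃ S, D.IsFamilySet z S ∧ ∀ T, D.IsFamilySet z T → S ⊆ T → T ⊆ S := by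
  obtain ⟨S, hS, hmax⟩ := zorn_subset {S | D.IsFamilySet z S} (fun c hc hch => by
    refine ⟨⋃₀ c, ⟨fun u hu => ?_, fun u hu => ?_, fun u hu v hv => ?_⟩,
      fun s hs => Set.subset_sUnion_of_mem hs⟩
    · obtain ⟨s, hs, hus⟩ := hu; exact (hc hs).pn u hus
    · obtain ⟨s, hs, hus⟩ := hu; exact (hc hs).ne u hus
    · obtain ⟨s, hs, hus⟩ := hu
      obtain ⟨t, ht, hvt⟩ := hv
      rcases hch.total hs ht with h | h
      · exact (hc ht).orth u (h hus) v hvt
      · exact (hc hs).orth u hus v (h hvt))
  exact ⟨S, hS, fun T hT hST => hmax hT hST⟩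

/-- The gain of a coefficient. -/
noncomputable def gain (z u : M) : ℝ := D.ψ (toR (D.coeff z u * star (D.coeff z u)))

theorem gain_pos {z u : M} (h : D.coeff z u ≠ 0) : 0 < D.gain z u := by
  set a := D.coeff z u
  have hnn : ∀ x, 0 ≤ toR (a * star a) x := fun x => by
    simp [Complex.mul_re]
    nlinarith [sq_nonneg (a x).re, sq_nonneg (a x).im]
  refine (D.ψ_pos _ (ContinuousMap.le_def.2 hnn)).lt_of_ne fun e => h ?_
  have h1 := D.ψ_faithful _ (ContinuousMap.le_def.2 hnn) e.symm
  ext x
  have h2 := ContinuousMap.congr_fun h1 x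
  simp [Complex.mul_re] at h2
  apply Complex.ext
  · simp only [ContinuousMap.zero_apply, Complex.zero_re]
    nlinarith [sq_nonneg (a x).re, sq_nonneg (a x).im]
  · simp only [ContinuousMap.zero_apply, Complex.zero_im]
    nlinarith [sq_nonneg (a x).re, sq_nonneg (a x).im]

theorem sum_gain_le {z : M} {F : Finset M} (hF : D.IsFamily F) :
    ∑ u ∈ F, D.gain z u ≤ D.ψ ((D.posMap z).K ⊤) := by
  classical
  rw [D.K_eq_of_family (z := z) hF ⊤, map_add, map_sum]
  refine le_add_of_le_of_nonneg (Finset.sum_le_sum fun u hu => le_of_eq ?_)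
    (D.ψ_pos _ ((D.posMap _).nonneg _))
  have e : D.coeff z u * star (D.coeff z u) * D.conjFn u (ofR (ind ⊤)) =
      D.coeff z u * star (D.coeff z u) := by
    have : D.conjFn u (ofR (ind ⊤)) = D.E (u * star u) := by
      show D.E (u * D.P ⊤ * star u) = _
      rw [D.P_top, mul_one]
    rw [this, mul_right_comm, coeff_mul_sq (hF.pn u hu)]
  rw [gain, e]

theorem family_countable {z : M} {S : Set M} (h : D.IsFamilySet z S) : S.Countable := by
  classical
  have hfin : ∀ n : ℕ, {u ∈ S | 1 / ((n : ℝ) + 1) < D.gain z u}.Finite := by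
    intro n
    by_contra hinf
    obtain ⟨m, hm⟩ := exists_nat_gt (D.ψ ((D.posMap z).K ⊤) * ((n : ℝ) + 1))
    obtain ⟨F, hFs, hFc⟩ := (Set.not_finite.1 hinf).exists_subset_card_eq m
    have h1 := D.sum_gain_le (z := z) (h.family fun u hu => (hFs hu).1)
    have h2 : (m : ℝ) * (1 / ((n : ℝ) + 1)) ≤ ∑ u ∈ F, D.gain z u := by
      have := Finset.card_nsmul_le_sum F (D.gain z) (1 / ((n : ℝ) + 1)) fun u hu => (hFs hu).2.le
      rwa [hFc, nsmul_eq_mul] at this
    have h3 := h2.trans h1
    rw [mul_one_div, div_le_iff₀ (by positivity)] at h3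
    linarith
  refine (Set.countable_iUnion fun n => (hfin n).countable).mono fun u hu => ?_
  obtain ⟨n, hn⟩ := exists_nat_one_div_lt (D.gain_pos (h.ne u hu))
  exact Set.mem_iUnion.2 ⟨n, hu, hn⟩

theorem seq_eq {g : ℕ → C(X, ℝ)} {m m' : C(X, ℝ)} (h : ∀ n, m ≤ g n) (h' : ∀ n, m' ≤ g n)
    (hm : ∀ ε > 0, ∃ n, D.ψ (g n) < D.ψ m + ε) (hm' : ∀ ε > 0, ∃ n, D.ψ (g n) < D.ψ m' + ε) :
    m = m' := by
  have key : ∀ {a b : C(X, ℝ)}, (∀ n, a ≤ g n) → (∀ n, b ≤ g n) →
      (∀ ε > 0, ∃ n, D.ψ (g n) < D.ψ a + ε) → b ≤ a := by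
    intro a b ha hb hae
    have : a = a ⊔ b := D.mass.eq_of_le le_sup_left (le_of_forall_pos_le_add fun ε hε => by
      obtain ⟨n, hn⟩ := hae ε hε
      exact (D.mass.mono (sup_le (ha n) (hb n))).trans hn.le)
    rw [this]
    exact le_sup_right
  exact le_antisymm (key h' h hm') (key h h' hm)

variable [Nonempty X]

/-- A maximal family carries the whole atomic part: the residual has small squares. -/
theorem tail_of_maximal {z : M} {S : Set M} (hS : D.IsFamilySet z S)
    (hmax : ∀ T, D.IsFamilySet z T → S ⊆ T → T ⊆ S) {ε : ℝ} (hε : 0 < ε) :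
    ∃ F₀ : Finset M, (F₀ : Set M) ⊆ S ∧ ∀ G : Finset M, F₀ ⊆ G → (G : Set M) ⊆ S →
      ∃ π₀ : DiscreteQuotient X, ∀ π ≤ π₀,
        D.ψ (∑ i : π, (D.posMap (D.rest z G)).K (cell π i) *
          (D.posMap (D.rest z G)).K (cell π i)) < ε := by
  classical
  obtain ⟨num, hnum⟩ := Set.countable_iff_exists_injOn.1 (D.family_countable hS)
  have hfin : ∀ n, {u ∈ S | num u < n}.Finite := fun n => by
    refine Set.Finite.of_finite_image ((Set.finite_lt_nat n).subset ?_)
      (hnum.mono fun u hu => hu.1)
    rintro _ ⟨u, hu, rfl⟩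
    exact hu.2
  set F : ℕ → Finset M := fun n => (hfin n).toFinset
  have hFS : ∀ n, D.IsFamily (F n) := fun n => hS.family fun u hu => by
    simp [F] at hu; exact hu.1
  have hFm : ∀ {n n'}, n ≤ n' → F n ⊆ F n' := fun h u hu => by
    simp [F] at hu ⊢; exact ⟨hu.1, hu.2.trans_le h⟩
  set T : ℕ → PosMap X := fun n => D.posMap (D.rest z (F n))
  have hTa : ∀ f, Antitone fun n => (T n).K f := fun f n n' h =>
    D.K_rest_antitone (hFS n') (hFm h) f
  choose L hL1 hL2 using fun f => D.seqInf _ (hTa f) (fun n => (T n).nonneg f)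
  have hLnn : ∀ f, 0 ≤ L f := fun f => by
    have : L f = L f ⊔ 0 := D.seq_eq (hL1 f) (fun n => sup_le (hL1 f n) ((T n).nonneg f)) (hL2 f)
      fun e he => by
        obtain ⟨n, hn⟩ := hL2 f e he
        exact ⟨n, hn.trans_le (by
          linarith [D.mass.mono (le_sup_left (a := L f) (b := (0 : C(X, ℝ)))),
            show D.mass.ψ (L f) = D.ψ (L f) from rfl,
            show D.mass.ψ (L f ⊔ 0) = D.ψ (L f ⊔ 0) from rfl])⟩
    rw [this]
    exact le_sup_right
  let TL : PosMap X :=
    { K := L
      nonneg := hLnn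
      add := fun f g h => D.seq_eq (hL1 _)
        (fun n => by rw [(T n).add f g h]; exact add_le_add (hL1 f n) (hL1 g n)) (hL2 _)
        fun e he => by
          obtain ⟨n1, h1⟩ := hL2 f (e / 2) (half_pos he)
          obtain ⟨n2, h2⟩ := hL2 g (e / 2) (half_pos he)
          refine ⟨max n1 n2, ?_⟩
          show D.ψ ((T (max n1 n2)).K (f ⊔ g)) < D.ψ (L f + L g) + e
          rw [(T _).add f g h, map_add, map_add]
          have a1 : D.ψ ((T (max n1 n2)).K f) ≤ D.ψ ((T n1).K f) :=
            D.mass.mono (hTa f (le_max_left n1 n2))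
          have a2 : D.ψ ((T (max n1 n2)).K g) ≤ D.ψ ((T n2).K g) :=
            D.mass.mono (hTa g (le_max_right n1 n2))
          linarith }
  have hF0 : F 0 = ∅ := by ext u; simp [F]
  have hLK : ∀ f, L f ≤ (D.posMap z).K f := fun f => by
    have := hL1 f 0
    simp only [T, hF0, D.rest_empty] at this
    exact this
  -- the residual has no atom
  have hatom : TL.atom D.mass ⊤ = 0 := by
    by_contra hne
    obtain ⟨cL⟩ := TL.exists_cut D.mass hne
    let c : PosMap.Cut (D.posMap z) :=
      ⟨cL.e, cL.p, cL.m, cL.m_pos, cL.p_ne, cL.β, cL.β_e, cL.β_top, cL.β_le, cL.β_inf, cL.β_sup,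
        cL.β_bot, fun f x hx => (cL.le_K f x hx).trans (ContinuousMap.le_def.1 (hLK f) x)⟩
    obtain ⟨w, hw, -, hwE, U, hU, hlim⟩ := D.exists_intertwiner c
    have horth : ∀ u ∈ S, D.E (w * star u) = 0 := by
      intro u hu
      set n := num u + 1
      have hun : u ∈ F n := by simp [F, n, hu]
      have hpn := hS.pn u hu
      set r := D.rest z (F n)
      have hr0 : D.E (r * star u) = 0 := coeff_rest (hFS n) hun
      have hzero : ∀ B : C(X, ℂ), u * D.ι (B * D.E (star u * r)) = 0 := by
        intro B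
        have h1 := hpn.E_conj (star u * r)
        obtain ⟨b, hb⟩ := hpn.sq_mem
        rw [show u * (star u * r) * star u = D.ι b * (r * star u) by rw [hb]; simp only [mul_assoc],
          D.E_left, hr0, mul_zero, map_zero] at h1
        obtain ⟨b', hb'⟩ := hpn.sq_mem'
        calc u * D.ι (B * D.E (star u * r))
            = u * (star u * u) * D.ι (D.E (star u * r)) * D.ι B := by
              rw [← mul_assoc u, hpn.pi, mul_comm B, map_mul, mul_assoc]
          _ = u * (D.ι (D.E (star u * r)) * (star u * u)) * D.ι B := by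
              rw [mul_assoc u (star u * u), ← hb', D.ι_comm]
          _ = (u * D.ι (D.E (star u * r)) * star u) * u * D.ι B := by simp only [mul_assoc]
          _ = 0 := by rw [← h1, zero_mul, zero_mul]
      set θ : (π : DiscreteQuotient X) → π → C(X, ℂ) := fun π i =>
        D.conjFn u (ofR (ind (cell π i ⊓ c.e)))
      set q : DiscreteQuotient X → C(X, ℝ) := fun π =>
        ∑ i : π, ind (c.β (cell π i)) * toR (θ π i)
      have hθ : ∀ π i, θ π i = ofR (toR (θ π i)) := fun π i => by
        ext x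
        exact Complex.ext (by simp)
          (by simpa using (Complex.nonneg_iff.1 (D.conjFn_ind_nonneg u _ x)).2.symm)
      have hθnn : ∀ π i, 0 ≤ toR (θ π i) := fun π i => ContinuousMap.le_def.2 fun x =>
        (Complex.nonneg_iff.1 (D.conjFn_ind_nonneg u _ x)).1
      have hqnn : ∀ π, 0 ≤ q π := fun π =>
        Finset.sum_nonneg fun i _ => mul_nonneg (ind_nonneg _) (hθnn π i)
      have hq : Tendsto (fun π => D.ψ (q π)) atBot (𝓝 0) := by
        have hp := D.pinch (D.P c.e * (star u * r) * D.P c.e) u (star r)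
        have hl : u * D.ι (D.E (D.P c.e * (star u * r) * D.P c.e)) * star r = 0 := by
          rw [P, D.E_bimod, mul_right_comm (ofR (ind c.e)) _ (ofR (ind c.e)), hzero, zero_mul]
        rw [hl, map_zero, show toR (0 : C(X, ℂ)) = 0 by ext x; simp, map_zero] at hp
        have hp2 : Tendsto (fun π : DiscreteQuotient X => D.ψ (∑ i : π, toR (θ π i) *
            (T n).K (cell π i ⊓ c.e))) atBot (𝓝 0) := by
          refine hp.congr fun π => ?_
          rw [finsum_eq_sum_of_fintype, Finset.mul_sum, Finset.sum_mul]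
          congr 1
          ext x
          rw [map_sum, toR_apply, ContinuousMap.sum_apply, Complex.re_sum,
            ContinuousMap.sum_apply]
          refine Finset.sum_congr rfl fun i _ => ?_
          have e : u * (D.P (cell π i) * (D.P c.e * (star u * r) * D.P c.e) * D.P (cell π i)) *
              star r = D.ι (θ π i) * (r * D.P (cell π i ⊓ c.e) * star r) := by
            rw [show θ π i = D.conjFn u (ofR (ind (cell π i ⊓ c.e))) from rfl, hpn.ι_conjFn,
              show D.ι (ofR (ind (cell π i ⊓ c.e))) = D.P (cell π i ⊓ c.e) from rfl]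
            conv_rhs => arg 2; rw [inf_comm]
            rw [← D.P_mul (cell π i) c.e, ← D.P_mul c.e (cell π i)]
            simp only [mul_assoc]
          change (D.E (u * (D.P (cell π i) * (D.P c.e * (star u * r) * D.P c.e) *
            D.P (cell π i)) * star r) x).re = _
          rw [e, D.E_left, hθ π i]
          simp [posMap, T, r]
        have hp3 := hp2.const_mul c.m⁻¹
        rw [mul_zero] at hp3
        refine squeeze_zero (fun π => D.ψ_pos _ (hqnn π)) (fun π => ?_) hp3
        have hsm : ∀ (k : ℝ) (f : C(X, ℝ)), k * D.ψ f = D.ψ (k • f) := fun k f => by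
          rw [map_smul, smul_eq_mul]
        rw [hsm]
        refine D.mass.mono (ContinuousMap.le_def.2 fun x => ?_)
        rw [ContinuousMap.smul_apply, smul_eq_mul, ContinuousMap.sum_apply, ContinuousMap.sum_apply,
          Finset.mul_sum]
        refine Finset.sum_le_sum fun i _ => ?_
        rw [ContinuousMap.mul_apply, ContinuousMap.mul_apply]
        have hTn := ContinuousMap.le_def.1 ((T n).nonneg (cell π i ⊓ c.e)) x
        rw [ContinuousMap.zero_apply] at hTn
        have hθx := ContinuousMap.le_def.1 (hθnn π i) x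
        rw [ContinuousMap.zero_apply] at hθx
        by_cases hx : x ∈ c.β (cell π i)
        · rw [ind_of_mem hx, one_mul]
          have hm : c.m ≤ (T n).K (cell π i ⊓ c.e) x := by
            refine (cL.le_K _ x ?_).trans (ContinuousMap.le_def.1 (hL1 _ n) x)
            show x ∈ c.β (cell π i ⊓ c.e)
            rwa [D.β_inf_e c]
          rw [← div_eq_inv_mul, le_div_iff₀ c.m_pos]
          exact mul_le_mul_of_nonneg_left hm hθx
        · rw [ind_of_not_mem hx, zero_mul]
          exact mul_nonneg (inv_nonneg.2 c.m_pos.le) (mul_nonneg hθx hTn)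
      refine D.eq_zero_of_test fun g => ?_
      have h1 := hlim (D.ι g) (star u)
      have e : ∀ π, D.E (D.ι g * D.approx c π * star u) = g * D.coeff z u * ofR (q π) := by
        intro π
        rw [mul_assoc, D.E_left, mul_assoc g]
        congr 1
        rw [approx, Finset.sum_mul, map_sum]
        ext x
        simp only [q, ContinuousMap.sum_apply, ContinuousMap.mul_apply, ofR_apply]
        push_cast
        rw [Finset.mul_sum]
        refine Finset.sum_congr rfl fun i _ => ?_
        rw [mul_assoc _ (D.P (cell π i ⊓ c.e)),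
          show D.P (cell π i ⊓ c.e) * star u = star u * D.ι (θ π i) from hpn.ι_mul_star _,
          ← mul_assoc, D.E_right, mul_assoc (D.P (c.β (cell π i))), P, D.E_left]
        conv_lhs => rw [hθ π i]
        simp only [coeff, ContinuousMap.mul_apply, ofR_apply]
        ring
      have h2 : Tendsto (fun π => D.φ (D.ι g * D.approx c π * star u)) atBot (𝓝 0) := by
        refine squeeze_zero_norm (fun π => ?_) (by simpa using hq.const_mul ‖g * D.coeff z u‖)
        rw [φ, e, Real.norm_eq_abs, show ∀ (k : ℝ) (f : C(X, ℝ)), k * D.ψ f = D.ψ (k • f) from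
          fun k f => by rw [map_smul, smul_eq_mul]]
        have hb : ∀ x, |toR (g * D.coeff z u * ofR (q π)) x| ≤ ‖g * D.coeff z u‖ * q π x := by
          intro x
          rw [toR_apply]
          refine (Complex.abs_re_le_norm _).trans ?_
          rw [ContinuousMap.mul_apply, norm_mul, ofR_apply, Complex.norm_real, Real.norm_of_nonneg
            (show 0 ≤ q π x from ContinuousMap.le_def.1 (hqnn π) x)]
          exact mul_le_mul_of_nonneg_right ((g * D.coeff z u).norm_coe_le_norm x)
            (ContinuousMap.le_def.1 (hqnn π) x)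
        refine abs_le.2 ⟨?_, D.mass.mono (ContinuousMap.le_def.2 fun x =>
          (le_abs_self _).trans (hb x))⟩
        rw [← map_neg]
        exact D.mass.mono (ContinuousMap.le_def.2 fun x => neg_le.1
          ((neg_le_abs _).trans (hb x)))
      have h3 := tendsto_nhds_unique h1 (h2.mono_left hU)
      rwa [φ, mul_assoc, D.E_left] at h3
    obtain ⟨b, hb, hbE⟩ := D.exists_norm_of_intertwiner c hw hwE
    obtain ⟨d, hd, hdE⟩ := D.exists_pn hb hbE
    set v := D.ι d * (D.ι b * w)
    have hvo : ∀ u ∈ S, D.E (v * star u) = 0 := fun u hu => by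
      simp only [v, mul_assoc]
      rw [D.E_left, D.E_left, horth u hu, mul_zero, mul_zero]
    have hnot : v ∉ S := fun hv => by
      apply hdE
      have h1 := hvo v hv
      have hv0 : star v = 0 := D.E_faithful _ (by rwa [star_star])
      rw [hv0, mul_zero, map_zero]
    apply hnot
    refine hmax (insert v S) ⟨?_, ?_, ?_⟩ (Set.subset_insert _ _) (Set.mem_insert _ _)
    · rintro u (rfl | hu)
      · exact hd
      · exact hS.pn u hu
    · rintro u (rfl | hu)
      · exact hdE
      · exact hS.ne u hu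
    · rintro u (rfl | hu) u' (rfl | hu') hne'
      · exact absurd rfl hne'
      · exact hvo u' hu'
      · have := congrArg star (hvo u hu)
        rw [← D.E_star, star_mul, star_star, star_zero] at this
        exact this
      · exact hS.orth u hu u' hu' hne'
  -- small squares
  set C0 := ‖(D.posMap z).K ⊤‖ + 1
  have hC0 : 0 < C0 := by positivity
  obtain ⟨π₀, hπ₀⟩ := TL.exists_g_near D.mass ⊤ (half_pos (div_pos hε hC0))
  rw [hatom, map_zero, zero_add] at hπ₀
  obtain ⟨n, hn⟩ := hL2 ⊤ (ε / C0 / 2) (half_pos (div_pos hε hC0))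
  refine ⟨F n, fun u hu => by simp [F] at hu; exact hu.1, fun G hFG hG => ⟨π₀, fun π hπ => ?_⟩⟩
  have hGle : D.ψ (∑ i : π, (D.posMap (D.rest z G)).K (cell π i) *
      (D.posMap (D.rest z G)).K (cell π i)) ≤
      D.ψ (∑ i : π, (T n).K (cell π i) * (T n).K (cell π i)) := by
    refine D.mass.mono (Finset.sum_le_sum fun i _ => ?_)
    have h1 := D.K_rest_antitone (z := z) (hS.family hG) hFG (cell π i)
    exact mul_le_mul h1 h1 ((D.posMap _).nonneg _) ((D.posMap _).nonneg _)
  refine hGle.trans_lt ?_
  have hle : ∑ i : π, (T n).K (cell π i) * (T n).K (cell π i) ≤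
      C0 • (TL.g ⊤ π + ((T n).K ⊤ - L ⊤)) := by
    refine ContinuousMap.le_def.2 fun x => ?_
    rw [ContinuousMap.sum_apply, ContinuousMap.smul_apply, smul_eq_mul]
    set G := (TL.g ⊤ π + ((T n).K ⊤ - L ⊤)) x
    have hKG : ∀ i : π, (T n).K (cell π i) x ≤ G := fun i => by
      have h1 := TL.le_g ⊤ i x
      rw [inf_top_eq] at h1
      have h3 : (T n).K ⊤ = (T n).K (cell π i) + (T n).K (cell π i)ᶜ := by
        rw [← (T n).add _ _ disjoint_compl_right, sup_compl_eq_top]
      have h4 : L ⊤ = L (cell π i) + L (cell π i)ᶜ := by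
        have := TL.add _ _ (disjoint_compl_right (a := cell π i))
        rwa [sup_compl_eq_top] at this
      have h5 := ContinuousMap.le_def.1 (hL1 (cell π i)ᶜ n) x
      simp only [G, ContinuousMap.add_apply, ContinuousMap.sub_apply, h3, h4]
      have h1' : L (cell π i) x ≤ TL.g ⊤ π x := h1
      linarith
    have hsum : ∀ s : Finset π, ∑ i ∈ s, (T n).K (cell π i) x = (T n).K (s.sup (cell π)) x := by
      intro s
      induction s using Finset.induction_on with
      | empty =>
        have h1 : (T n).K (⊥ : Clopens X) = 0 := by simpa using (T n).add ⊥ ⊥ disjoint_bot_left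
        simp [h1]
      | insert a s ha ih =>
        rw [Finset.sum_insert ha, ih, Finset.sup_insert, (T n).add _ _ (Finset.disjoint_sup_right.2
          fun j hj => cell_disjoint fun e : a = j => ha (e ▸ hj)), ContinuousMap.add_apply]
    have hG : 0 ≤ G := (ContinuousMap.le_def.1 ((T n).nonneg _) x).trans (hKG (π.proj x))
    calc ∑ i : π, ((T n).K (cell π i) * (T n).K (cell π i)) x
        ≤ ∑ i : π, (T n).K (cell π i) x * G := Finset.sum_le_sum fun i _ => by
          rw [ContinuousMap.mul_apply]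
          exact mul_le_mul_of_nonneg_left (hKG i) (ContinuousMap.le_def.1 ((T n).nonneg _) x)
      _ = (T n).K ⊤ x * G := by rw [← Finset.sum_mul, hsum, sup_cells]
      _ ≤ C0 * G := by
          refine mul_le_mul_of_nonneg_right ?_ hG
          have h1 := ContinuousMap.le_def.1 (hTa ⊤ (Nat.zero_le n)) x
          simp only [T, hF0, D.rest_empty] at h1 ⊢
          have h2 := ((D.posMap z).K ⊤).norm_coe_le_norm x
          rw [Real.norm_eq_abs] at h2
          have h6 := le_abs_self ((D.posMap z).K ⊤ x)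
          simp only [C0]
          linarith
  have hψ : D.ψ (∑ i : π, (T n).K (cell π i) * (T n).K (cell π i)) ≤
      D.ψ (C0 • (TL.g ⊤ π + ((T n).K ⊤ - L ⊤))) := D.mass.mono hle
  rw [map_smul, map_add, map_sub, smul_eq_mul] at hψ
  have hg : D.ψ (TL.g ⊤ π) ≤ D.ψ (TL.g ⊤ π₀) := D.mass.mono (TL.g_mono ⊤ hπ)
  have hg2 : D.ψ (TL.g ⊤ π₀) < ε / C0 / 2 := hπ₀
  calc _ ≤ C0 * (D.ψ (TL.g ⊤ π) + (D.ψ ((T n).K ⊤) - D.ψ (L ⊤))) := hψ
    _ < C0 * (ε / C0) := mul_lt_mul_of_pos_left (by linarith) hC0
    _ = ε := mul_div_cancel₀ ε hC0.ne'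

end Data

end Vale.Agent.P078.AllMasa.Family
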